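import Vale.Agent.P006.KU.NonCube

/-!
P006, block KU: the character sum at the cusp `0`: `∑_{b mod a} (b/a)_3`.
-/

namespace Vale.Agent.P006.KU

open Vale.Agent.P006
open scoped BigOperators

/-- a primary element whose residue symbol is trivial is a cube -/
theorem cube_of_sym_eq_one : ∀ c : O, Primary c →
    (∀ a : O, IsCoprime a c → sym a c = 1) → ∃ m : O, Primary m ∧ c = m ^ 3 := by
  intro c
  induction hn : N c using Nat.strong_induction_on generalizing c with
  | _ n ih => ?_
  intro hc h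
  by_cases hu : IsUnit c
  · exact ⟨1, primary_one, by rw [hc.eq_one hu]; ring⟩
  obtain ⟨π₀, hπ₀, hd⟩ := WfDvdMonoid.exists_irreducible_factor hu hc.ne_zero
  have hl : ¬ lam ∣ π₀ := fun h => hc.not_lam_dvd (h.trans hd)
  obtain ⟨u, hu', hp⟩ := exists_unit_mul_primary hl
  have has : Associated π₀ (u * π₀) := associated_unit_mul_right π₀ u hu'
  have hpr : Prime (u * π₀) := has.prime hπ₀.prime
  have hpd : (u * π₀) ∣ c := has.symm.dvd.trans hd
  set p := u * π₀ with hpdef
  obtain ⟨e, c1, hc1, hcc⟩ := WfDvdMonoid.max_power_factor hc.ne_zero hpr.irreducible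
  have hpe : Primary (p ^ e) := hp.pow e
  have hc1p : Primary c1 := Primary.of_mul hpe (hcc ▸ hc)
  have he : e ≠ 0 := by
    rintro rfl
    rw [pow_zero, one_mul] at hcc
    exact hc1 (hcc ▸ hpd)
  have hcop : IsCoprime p c1 := (hpr.irreducible.coprime_iff_not_dvd).2 hc1
  have hmul : ∀ a : O, sym a c = sym a p ^ e * sym a c1 := by
    intro a
    rw [hcc, sym_mul_right a hpe.ne_zero hc1p.ne_zero, sym_pow_right a hp.ne_zero]
  have h3e : 3 ∣ e := by
    obtain ⟨a0, ha0, hne⟩ := exists_sym_ne_one hpr hp.not_lam_dvd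
    obtain ⟨a, ha1, ha2⟩ := crt2 hcop a0 1
    have hap : IsCoprime a p := by
      rw [isCoprime_comm, isCoprime_congr ha1, isCoprime_comm]; exact ha0
    have hac1 : IsCoprime a c1 := (isCoprime_of_dvd_sub_one ha2).symm
    have h1 : sym a c = 1 := h a (by rw [hcc]; exact (hap.pow_right).mul_right hac1)
    rw [hmul, sym_periodic ha2, sym_one_left, mul_one, sym_periodic ha1] at h1
    exact dvd_of_pow_eq_one (sym_cube ha0) h1 hne
  have hc1h : ∀ a : O, IsCoprime a c1 → sym a c1 = 1 := by
    intro a0 ha0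
    obtain ⟨a, ha1, ha2⟩ := crt2 hcop 1 a0
    have hap : IsCoprime a p := (isCoprime_of_dvd_sub_one ha1).symm
    have hac1 : IsCoprime a c1 := by
      rw [isCoprime_comm, isCoprime_congr ha2, isCoprime_comm]; exact ha0
    have h1 : sym a c = 1 := h a (by rw [hcc]; exact (hap.pow_right).mul_right hac1)
    rw [hmul, sym_periodic ha1, sym_one_left, one_pow, one_mul, sym_periodic ha2] at h1
    exact h1
  have hlt : N c1 < n := by
    rw [← hn, hcc, N_mul, N_pow]
    have h1 : 4 ≤ N p := four_le_N hpr hp.not_lam_dvd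
    have h2 : 0 < N c1 := N_pos hc1p.ne_zero
    have h3 : N p ≤ N p ^ e := Nat.le_self_pow he _
    nlinarith
  obtain ⟨m1, hm1p, hm1⟩ := ih (N c1) hlt c1 rfl hc1p hc1h
  obtain ⟨f, hf⟩ := h3e
  exact ⟨p ^ f * m1, (hp.pow f).mul hm1p, by rw [hcc, hm1, hf]; ring⟩

/-- the sum of the cubic character modulo a primary `a` that is not a cube vanishes -/
theorem sum_chi_eq_zero {a : O} [NeZero a] (ha : Primary a) (hc : ¬ ∃ m : O, a = m ^ 3) :
    ∑ x : Rs a, chi a x = 0 := by
  apply MulChar.sum_eq_zero_of_ne_one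
  intro h1
  apply hc
  obtain ⟨m, _, hm⟩ := cube_of_sym_eq_one a ha (by
    intro b hb
    have h2 : chi a (rs a b) = 1 := by
      rw [h1]
      exact MulChar.one_apply ((isUnit_rs_iff).2 hb)
    rw [chi_rs, ← map_one toC, toC_inj] at h2
    exact h2)
  exact ⟨m, hm⟩

/-- the sum of the cubic character modulo a cube is `phi a` -/
theorem sum_chi_cube {a m : O} [NeZero a] (hm : a = m ^ 3) :
    ∑ x : Rs a, chi a x = phi a := by
  classical
  have h1 : ∀ x : Rs a, chi a x = ((liftR a (cop a) x : ℕ) : ℂ) := by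
    intro x
    obtain ⟨x, rfl⟩ := rs_surj a x
    rw [liftR_rs (per_cop a), chi_rs, cop]
    have hm0 : m ≠ 0 := by
      rintro rfl
      exact NeZero.ne a (by rw [hm]; ring)
    split_ifs with h
    · have h2 : IsCoprime x m := by
        rw [hm] at h; exact ((IsCoprime.pow_left_iff (by norm_num)).1 h).symm
      rw [hm, sym_pow_right x hm0, sym_cube h2]; simp
    · have : sym x a = 0 := sym_eq_zero.2 (fun h' => h h'.symm)
      rw [this]; simp
  rw [Finset.sum_congr rfl (fun x _ => h1 x), ← Nat.cast_sum, sum_cop]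

end Vale.Agent.P006.KU
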