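import Vale.Agent.P006.KU.NonCube
import Vale.Agent.P006.KU.Cusp0
import Vale.Agent.P006.CR.Reciprocity

/-!
P006, block KU: instantiation on the ring of Eisenstein integers. The Kubota character
`(a b; c d) ↦ (c/d)_3` on `Gamma3 O`, and its constant term sums.
-/

namespace Vale.Agent.P006.KU

open Vale.Agent.P006
open scoped BigOperators

theorem not_isUnit_three : ¬ IsUnit (3 : O) := by
  intro h
  have h1 := isUnit_iff_N.1 h
  rw [norm_three] at h1
  omega

theorem eq_re_add_im (x : O) : x = (x.re : O) + (x.im : O) * om := by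
  apply QuadraticAlgebra.ext
  · simp [om]
  · simp [om]

theorem mem_closure_units (x : O) : x ∈ AddSubgroup.closure {u : O | IsUnit u} := by
  have h : x = x.re • (1 : O) + x.im • om := by
    conv_lhs => rw [eq_re_add_im x]
    simp
  rw [h]
  have h1 : (1 : O) ∈ AddSubgroup.closure {u : O | IsUnit u} :=
    AddSubgroup.subset_closure (show IsUnit (1 : O) from isUnit_one)
  have h2 : om ∈ AddSubgroup.closure {u : O | IsUnit u} :=
    AddSubgroup.subset_closure (show IsUnit om from isUnit_om)
  exact add_mem (AddSubgroup.zsmul_mem _ h1 _) (AddSubgroup.zsmul_mem _ h2 _)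

/-- every nonzero element is `unit * lam^k * primary` -/
theorem exists_factor (c : O) (hc : c ≠ 0) : ∃ (u c0 : O) (k : ℕ), IsUnit u ∧ (3 : O) ∣ c0 - 1 ∧
    c = u * lam ^ k * c0 := by
  obtain ⟨k, z, hz, hcz⟩ := WfDvdMonoid.max_power_factor hc prime_lam.irreducible
  obtain ⟨u, hu, hp⟩ := exists_unit_mul_primary hz
  obtain ⟨v, rfl⟩ := hu
  refine ⟨(v⁻¹ : Oˣ), v * z, k, Units.isUnit _, hp, ?_⟩
  rw [hcz]
  calc lam ^ k * z = ((v⁻¹ : Oˣ) : O) * v * (lam ^ k * z) := by simp
    _ = _ := by ring

/-- the cubic residue symbol satisfies the axioms of `SymData` -/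
noncomputable def symData : SymData O O where
  sym := sym
  lam := lam
  mul_left a a' b _ := sym_mul_left a a' b
  mul_right a b b' hb hb' := sym_mul_right a (Primary.ne_zero hb) (Primary.ne_zero hb')
  congr _ _ _ _ h := sym_periodic h
  cube a b _ h := sym_cube h
  recip a b ha hb := recip ha hb
  unit9 u b b' hu hb h := sym_unit_left_congr hu hb h
  lam9 b b' hb h := sym_lam_congr hb h
  neg_one b _ := sym_neg_one b
  factor := exists_factor
  unit_one u hu h := Primary.eq_one h hu
  gen := mem_closure_units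
  three := not_isUnit_three

/-- the complex valued cubic residue symbol satisfies the axioms of `SymData` -/
noncomputable def symDataC : SymData O ℂ where
  sym a b := toC (sym a b)
  lam := lam
  mul_left a a' b _ := by rw [sym_mul_left, map_mul]
  mul_right a b b' hb hb' := by
    rw [sym_mul_right a (Primary.ne_zero hb) (Primary.ne_zero hb'), map_mul]
  congr a a' b _ h := by rw [sym_periodic h]
  cube a b _ h := by rw [← map_pow, sym_cube h, map_one]
  recip a b ha hb := by rw [recip ha hb]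
  unit9 u b b' hu hb h := by rw [sym_unit_left_congr hu hb h]
  lam9 b b' hb h := by rw [sym_lam_congr hb h]
  neg_one b _ := by rw [sym_neg_one b, map_one]
  factor := exists_factor
  unit_one u hu h := Primary.eq_one h hu
  gen := mem_closure_units
  three := not_isUnit_three

@[simp] theorem symData_sym (a b : O) : symData.sym a b = sym a b := rfl
@[simp] theorem symDataC_sym (a b : O) : symDataC.sym a b = toC (sym a b) := rfl
@[simp] theorem symData_lam : symData.lam = lam := rfl
@[simp] theorem symDataC_lam : symDataC.lam = lam := rfl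

theorem omU_zpow_eq_one {k : ℤ} (h : omU ^ k = 1) : (3 : ℤ) ∣ k := by
  have h3 : k % 3 = 0 ∨ k % 3 = 1 ∨ k % 3 = 2 := by omega
  rcases h3 with h3 | h3 | h3
  · omega
  · exfalso
    have h4 : omU ^ k = omU ^ (1 : ℤ) := omU_zpow_congr (by omega)
    rw [h, zpow_one] at h4
    have h5 := congrArg (fun u : Oˣ => (u : O)) h4
    simp only [omU_val, Units.val_one] at h5
    revert h5; decide
  · exfalso
    have h4 : omU ^ k = omU ^ (2 : ℤ) := omU_zpow_congr (by omega)
    rw [h] at h4
    have h5 := congrArg (fun u : Oˣ => (u : O)) h4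
    have h6 : ((omU ^ (2 : ℤ) : Oˣ) : O) = om ^ 2 := by
      rw [show (2 : ℤ) = ((2 : ℕ) : ℤ) by norm_num, zpow_natCast, Units.val_pow_eq_pow_val,
        omU_val]
    simp only [Units.val_one, h6] at h5
    revert h5; decide

theorem sym_om_pow_lam_pow {b : O} {m n : ℤ} (h1 : b.re = 1 + 3 * m) (h2 : b.im = 3 * n)
    (j k : ℕ) : sym (om ^ j * lam ^ k) b = ((omU ^ (-(m + n) * j + m * k) : Oˣ) : O) := by
  rw [sym_mul_left, sym_pow_left, sym_pow_left, sym_om' h1 h2, sym_lam h1 h2, zpow_add, zpow_mul,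
    zpow_mul, zpow_natCast, zpow_natCast, Units.val_mul, Units.val_pow_eq_pow_val,
    Units.val_pow_eq_pow_val]

theorem nontriv_symData : Nontriv symData where
  prime p hp hpp := exists_sym_ne_one hp hpp.not_lam_dvd
  supp u k hu h := by
    -- write `u = ± om^j`
    have hu' : ∃ (s : O) (j : ℕ), (s = 1 ∨ s = -1) ∧ j < 3 ∧ u = s * om ^ j := by
      rcases isUnit_cases hu with h | h | h | h | h | h
      · exact ⟨1, 0, Or.inl rfl, by norm_num, by rw [h]; ring⟩
      · exact ⟨1, 1, Or.inl rfl, by norm_num, by rw [h]; ring⟩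
      · exact ⟨1, 2, Or.inl rfl, by norm_num, by rw [h]; ring⟩
      · exact ⟨-1, 0, Or.inr rfl, by norm_num, by rw [h]; ring⟩
      · exact ⟨-1, 1, Or.inr rfl, by norm_num, by rw [h]; ring⟩
      · exact ⟨-1, 2, Or.inr rfl, by norm_num, by rw [h]; ring⟩
    obtain ⟨s, j, hs, hj, rfl⟩ := hu'
    have h' : ∀ (m n : ℤ), (omU ^ (-(m + n) * j + m * k) : Oˣ) = 1 := by
      intro m n
      have h1 := h ⟨1 + 3 * m, 3 * n⟩ (by
        rw [primary_iff]; constructor
        · show (3 : ℤ) ∣ 1 + 3 * m - 1; exact ⟨m, by ring⟩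
        · exact ⟨n, rfl⟩)
      simp only [symData_sym, symData_lam] at h1
      have h2 : s * om ^ j * lam ^ k = s * (om ^ j * lam ^ k) := by ring
      rw [h2] at h1
      have h3 : sym (s * (om ^ j * lam ^ k)) ⟨1 + 3 * m, 3 * n⟩
          = sym (om ^ j * lam ^ k) ⟨1 + 3 * m, 3 * n⟩ := by
        rcases hs with hs | hs
        · rw [hs, one_mul]
        · rw [hs, neg_one_mul, sym_neg_left]
      rw [h3, sym_om_pow_lam_pow (b := ⟨1 + 3 * m, 3 * n⟩) rfl rfl j k] at h1
      exact Units.ext h1
    have h1 := omU_zpow_eq_one (h' 0 1)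
    have h2 := omU_zpow_eq_one (h' 1 0)
    have hj0 : j = 0 := by omega
    subst hj0
    have hk : 3 ∣ k := by omega
    obtain ⟨l, rfl⟩ := hk
    rw [symData_lam, pow_zero, mul_one]
    rcases hs with hs | hs
    · exact ⟨lam ^ l, by rw [hs]; ring⟩
    · exact ⟨-lam ^ l, by rw [hs]; ring⟩

/-- if `c` is not zero and not a cube, some primary `d` prime to `c` has `(c/d) ≠ 1` -/
theorem exists_primary_sym_ne_one {c : O} (hc0 : c ≠ 0) (hc : ¬ ∃ m : O, c = m ^ 3) :
    ∃ d : O, Primary d ∧ IsCoprime c d ∧ sym c d ≠ 1 := by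
  by_contra hcon
  push Not at hcon
  exact hc (cube_of_trivial nontriv_symData hc0 (fun d hd hcd => hcon d hd hcd) rfl)

/-- the constant term sum attached to `c` (`3 ∣ c`): the sum of `(c/d)` over the classes
`d mod 3c` of primary `d` prime to `c` -/
noncomputable def cst (c : O) [NeZero c] : ℂ :=
  ∑ x : Rs (3 * c), liftR (3 * c) (ks symDataC c) x

theorem cst_eq_zero {c : O} [NeZero c] (h3 : (3 : O) ∣ c) (hc : ¬ ∃ m : O, c = m ^ 3) :
    cst c = 0 := by
  obtain ⟨d, hd, hcd, hne⟩ := exists_primary_sym_ne_one (NeZero.ne c) hc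
  refine sum_ks_eq_zero symDataC h3 hd hcd ?_
  rw [symDataC_sym, ← map_one toC, Ne, toC_inj]; exact hne

theorem two_mul_cst {c m : O} [NeZero c] [NeZero m] (hc : c = m ^ 3) (hm : lam ∣ m) :
    2 * cst c = 3 * (N m : ℂ) ^ 2 * phi m := sum_ks_cube symDataC hc hm

theorem lam_dvd_of_three_dvd_cube {m : O} (h : (3 : O) ∣ m ^ 3) : lam ∣ m :=
  prime_lam.dvd_of_dvd_pow (lam_dvd_three.trans h)

/-- the Kubota character with values in `O` -/
noncomputable def kub : Gamma3 O →* O := kappa symData

/-- the Kubota character with values in `ℂ` -/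
noncomputable def kubC : Gamma3 O →* ℂ := kappa symDataC

theorem kubC_apply (g : Gamma3 O) :
    kubC g = toC (sym ((g : Matrix.SpecialLinearGroup (Fin 2) O) 1 0)
      ((g : Matrix.SpecialLinearGroup (Fin 2) O) 1 1)) := rfl

theorem norm_kubC (g : Gamma3 O) : ‖kubC g‖ = 1 := by
  rw [kubC_apply]
  exact norm_sym (isCoprime_row _)

theorem kubC_S_conj (g : Gamma3 O) :
    kubC ⟨(Smat O)⁻¹ * g * Smat O, S_conj_mem g.2⟩ = kubC g := kappa_S_conj symDataC g

/-- multiplicativity on bottom rows -/
theorem sym_row_mul {c d a' b' c' d' : O} (hc : (3 : O) ∣ c) (hd : Primary d)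
    (hb' : (3 : O) ∣ b') (hd' : Primary d') (hcd : IsCoprime c d) (hdet : a' * d' - b' * c' = 1) :
    sym (c * a' + d * c') (c * b' + d * d') = sym c d * sym c' d' :=
  symData.row_mul hc hd hb' hd' hcd hdet

end Vale.Agent.P006.KU
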