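import Vale.Agent.P006.KU.CT6
import Vale.Agent.P006.GRAM.Class

/-!
P006, block KU (constant terms): final form, in the notation of the blocks H and GRAM.

`ctS f v q = ∑_{m ≠ 0, q ∣ m} beta m * ∫_{N(m)^3 v}^∞ f`.
-/

namespace Vale.Agent.P006.KU.CT

open MeasureTheory Set Complex
open Vale.Agent.P006 Vale.Agent.P006.GRAM

open Classical in
/-- the series over `m ≠ 0`, `q ∣ m` -/
noncomputable def ctS (f : ℝ → ℂ) (v : ℝ) (q : O) : ℂ :=
  ∑' m : O, if m ≠ 0 ∧ q ∣ m then (beta m : ℂ) * FF f ((N m : ℝ) ^ 3 * v) else 0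

open Classical in
theorem mt_dvd (f : ℝ → ℂ) (v : ℝ) (q m : O) : mt f v (fun m => q ∣ m) m
    = if m ≠ 0 ∧ q ∣ m then (beta m : ℂ) * FF f ((N m : ℝ) ^ 3 * v) else 0 := by
  by_cases h : m ≠ 0 ∧ q ∣ m
  · rw [if_pos h, mt_of (P := fun m => q ∣ m) h]; rfl
  · rw [if_neg h, mt_of_not (P := fun m => q ∣ m) h]

theorem ctS_eq (f : ℝ → ℂ) (v : ℝ) (q : O) :
    ctS f v q = ∑' m : O, mt f v (fun m => q ∣ m) m :=
  tsum_congr fun m => (mt_dvd f v q m).symm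

theorem exists_cls {f : ℝ → ℂ} (hf : CL f) : ∃ C : ℝ, 0 ≤ C ∧ Cls f C := by
  obtain ⟨C, hC, h⟩ := hf.bound
  exact ⟨C, hC, hf.meas, h⟩

variable {f : ℝ → ℂ} {v : ℝ}

open Classical in
theorem summable_ctS (hf : CL f) (hv : 0 < v) (q : O) :
    Summable fun m : O => if m ≠ 0 ∧ q ∣ m then (beta m : ℂ) * FF f ((N m : ℝ) ^ 3 * v) else 0 := by
  obtain ⟨C, _, hC⟩ := exists_cls hf
  exact (summable_mt hv hC (fun m => q ∣ m)).congr fun m => mt_dvd f v q m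

/-- bound of the terms of `ctS` -/
theorem norm_ctS_term_le {C : ℝ} (hf : Cls f C) (hv : 0 < v) {m : O} (hm : m ≠ 0) :
    ‖(beta m : ℂ) * FF f ((N m : ℝ) ^ 3 * v)‖ ≤ C / 3 / (1 + (N m : ℝ) ^ 3 * v) ^ 3 := by
  have hN : (0 : ℝ) ≤ N m := by positivity
  rw [norm_mul]
  calc ‖(beta m : ℂ)‖ * ‖FF f ((N m : ℝ) ^ 3 * v)‖
      ≤ 1 * (C / 3 / (1 + (N m : ℝ) ^ 3 * v) ^ 3) :=
        mul_le_mul (norm_beta_le hm) (hf.norm_integral_le (by positivity)) (norm_nonneg _)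
          zero_le_one
    _ = _ := one_mul _

theorem tsum_not_lam (hf : CL f) (hv : 0 < v) {q : O} (hq : IsCoprime lam q) :
    ∑' m : O, mt f v (fun m => ¬ lam ∣ m ∧ q ∣ m) m = ctS f v q - ctS f v (lam * q) := by
  obtain ⟨C, _, hC⟩ := exists_cls hf
  rw [ctS_eq, ctS_eq, ← (summable_mt hv hC _).tsum_sub (summable_mt hv hC _)]
  refine tsum_congr fun m => ?_
  by_cases hm : m = 0
  · rw [mt_of_not (fun h => h.1 hm), mt_of_not (fun h => h.1 hm), mt_of_not (fun h => h.1 hm),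
      sub_zero]
  · by_cases hqm : q ∣ m
    · by_cases hl : lam ∣ m
      · rw [mt_of_not (P := fun m => ¬ lam ∣ m ∧ q ∣ m) (fun h => h.2.1 hl),
          mt_of (P := fun m => q ∣ m) ⟨hm, hqm⟩,
          mt_of (P := fun m => lam * q ∣ m) ⟨hm, hq.mul_dvd hl hqm⟩, sub_self]
      · rw [mt_of (P := fun m => ¬ lam ∣ m ∧ q ∣ m) ⟨hm, hl, hqm⟩,
          mt_of (P := fun m => q ∣ m) ⟨hm, hqm⟩,
          mt_of_not (P := fun m => lam * q ∣ m) (fun h => hl ((Dvd.intro _ rfl).trans h.2)),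
          sub_zero]
    · rw [mt_of_not (P := fun m => ¬ lam ∣ m ∧ q ∣ m) (fun h => hqm h.2.2),
        mt_of_not (P := fun m => q ∣ m) (fun h => hqm h.2),
        mt_of_not (P := fun m => lam * q ∣ m) (fun h => hqm ((Dvd.intro_left _ rfl).trans h.2)),
        sub_zero]

/-! ### cusp infinity -/

theorem ct_E (hf : CL f) (hv : 0 < v) {q : O} (hlq : IsCoprime lam q)
    (hq : ∀ m : O, q ∣ m ^ 3 → q ∣ m) :
    IntegrableOn (fun z => H9.E q eta f (H9.H3.of z v)) H9.box ∧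
    ∫ z in H9.box, H9.E q eta f (H9.H3.of z v)
      = (H9.area : ℂ) * f (1 / v) + ((Real.pi * v / 3 : ℝ) : ℂ) * ctS f v (lam * q) := by
  obtain ⟨C, _, hC⟩ := exists_cls hf
  have h := ct_infty hv hC hq
  rw [box_eq_cell]
  refine ⟨h.1, ?_⟩
  rw [h.2, ctS_eq]
  congr 2
  rw [mt_congr fun m _ => ?_]
  exact ⟨fun h => hlq.mul_dvd h.1 h.2, fun h =>
    ⟨(Dvd.intro _ rfl).trans h, (Dvd.intro_left _ rfl).trans h⟩⟩

/-- **constant term of `E 1 η f` at infinity** -/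
theorem ct_E_one (hf : CL f) (hv : 0 < v) :
    IntegrableOn (fun z => H9.E 1 eta f (H9.H3.of z v)) H9.box ∧
    ∫ z in H9.box, H9.E 1 eta f (H9.H3.of z v)
      = (H9.area : ℂ) * f (1 / v) + ((Real.pi * v / 3 : ℝ) : ℂ) * ctS f v lam := by
  have h := ct_E hf hv (q := 1) isCoprime_one_right (fun m _ => one_dvd m)
  rwa [mul_one] at h

/-- **constant term of `E p η f` at infinity** -/
theorem ct_E_prime (hf : CL f) (hv : 0 < v) {p : O} (hp : Prime p) (hlp : ¬ lam ∣ p) :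
    IntegrableOn (fun z => H9.E p eta f (H9.H3.of z v)) H9.box ∧
    ∫ z in H9.box, H9.E p eta f (H9.H3.of z v)
      = (H9.area : ℂ) * f (1 / v) + ((Real.pi * v / 3 : ℝ) : ℂ) * ctS f v (lam * p) :=
  ct_E hf hv (prime_lam.coprime_iff_not_dvd.2 hlp) fun _ h => hp.dvd_of_dvd_pow h

/-! ### cusp `0` -/

theorem ct_E0 (hf : CL f) (hv : 0 < v) {q : O} (hlq : IsCoprime lam q)
    (hq : ∀ m : O, q ∣ m ^ 3 → q ∣ m) :
    IntegrableOn (E0 q f v) H9.box ∧
    ∫ z in H9.box, E0 q f v z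
      = ((Real.pi * v / 6 : ℝ) : ℂ) * (ctS f v q - ctS f v (lam * q)) := by
  obtain ⟨C, _, hC⟩ := exists_cls hf
  have h := ct_zero hv hC hq
  rw [box_eq_cell]
  refine ⟨h.1, ?_⟩
  rw [h.2, tsum_not_lam hf hv hlq]

/-- **constant term of `E 1 η f (S w)`** -/
theorem ct_E_S (hf : CL f) (hv : 0 < v) :
    IntegrableOn (fun z => H9.E 1 eta f (KU.Smat O • H9.H3.of z v)) H9.box ∧
    ∫ z in H9.box, H9.E 1 eta f (KU.Smat O • H9.H3.of z v)
      = ((Real.pi * v / 6 : ℝ) : ℂ) * (ctS f v 1 - ctS f v lam) := by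
  have h := ct_E0 hf hv (q := 1) isCoprime_one_right (fun m _ => one_dvd m)
  have e : E0 1 f v = fun z => H9.E 1 eta f (KU.Smat O • H9.H3.of z v) :=
    funext fun z => E0_one_eq hv z
  rw [mul_one, e] at h
  exact h

/-- **constant term of the rows with `p ∣ d` at `S w`** -/
theorem ct_E0_prime (hf : CL f) (hv : 0 < v) {p : O} (hp : Prime p) (hlp : ¬ lam ∣ p) :
    IntegrableOn (E0 p f v) H9.box ∧
    ∫ z in H9.box, E0 p f v z
      = ((Real.pi * v / 6 : ℝ) : ℂ) * (ctS f v p - ctS f v (lam * p)) :=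
  ct_E0 hf hv (prime_lam.coprime_iff_not_dvd.2 hlp) fun _ h => hp.dvd_of_dvd_pow h

/-! ### conjugate symbol -/

theorem CL_conj (hf : CL f) : CL (fun x => (starRingEnd ℂ) (f x)) where
  meas := Complex.continuous_conj.measurable.comp hf.meas
  bound := by
    obtain ⟨C, hC, h⟩ := hf.bound
    exact ⟨C, hC, fun x hx => by rw [RCLike.norm_conj]; exact h x hx⟩

theorem E_conj (q : O) (η : O → O → ℂ) (f : ℝ → ℂ) (w : H9.H3) :
    H9.E q (fun c d => (starRingEnd ℂ) (η c d)) f w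
      = (starRingEnd ℂ) (H9.E q η (fun x => (starRingEnd ℂ) (f x)) w) := by
  rw [H9.E, H9.E, Complex.conj_tsum]
  refine tsum_congr fun p => ?_
  rw [map_mul, Complex.conj_conj]

theorem FF_conj (f : ℝ → ℂ) (y : ℝ) :
    FF (fun x => (starRingEnd ℂ) (f x)) y = (starRingEnd ℂ) (FF f y) := integral_conj

theorem ctS_conj (f : ℝ → ℂ) (v : ℝ) (q : O) :
    ctS (fun x => (starRingEnd ℂ) (f x)) v q = (starRingEnd ℂ) (ctS f v q) := by
  classical
  rw [ctS, ctS, Complex.conj_tsum]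
  refine tsum_congr fun m => ?_
  split_ifs
  · rw [FF_conj, map_mul, conj_ofReal]
  · rw [map_zero]

end Vale.Agent.P006.KU.CT
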