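import Vale.Agent.P006.KU.CT4
import Vale.Agent.P006.H9.Eis

/-!
P006, block KU (constant terms): the constant term of `E q η f` at infinity,
`η c d = (c/d)_3`.
-/

namespace Vale.Agent.P006.KU.CT

open MeasureTheory Set Complex
open Vale.Agent.P006 Vale.Agent.P006.GRAM

/-- the cubic symbol as a function of the bottom row -/
noncomputable def eta (c d : O) : ℂ := toC (sym c d)

theorem eta_zero_one : eta 0 1 = 1 := by simp [eta]

theorem rowChar_eta : H9.RowChar eta where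
  mul g hg h hh := by
    have := map_mul kubC ⟨g, hg⟩ ⟨h, hh⟩
    exact this
  norm g hg := norm_kubC ⟨g, hg⟩

/-! ### the two descriptions of the period parallelogram -/

theorem box_eq_cell : H9.box = cell 3 := by
  ext z
  have h3 := GRAM.sqrt3_pos
  have e1 : H9.cx z = GRAM.cx z / 3 := by
    rw [H9.cx, GRAM.cx]; field_simp
  have e2 : H9.cy z = GRAM.cy z / 3 := by
    rw [H9.cy, GRAM.cy]; field_simp
  show ((0 ≤ H9.cx z ∧ H9.cx z < 1) ∧ 0 ≤ H9.cy z ∧ H9.cy z < 1) ↔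
    ((0 ≤ GRAM.cx z ∧ GRAM.cx z < 3) ∧ (0 ≤ GRAM.cy z ∧ GRAM.cy z < 3))
  rw [e1, e2]
  constructor
  · rintro ⟨⟨h1, h2⟩, h3, h4⟩
    refine ⟨⟨?_, ?_⟩, ?_, ?_⟩ <;> linarith
  · rintro ⟨⟨h1, h2⟩, h3, h4⟩
    refine ⟨⟨?_, ?_⟩, ?_, ?_⟩ <;> linarith

theorem volume_cell3 : (volume : Measure ℂ).real (cell 3) = H9.area := by
  rw [← box_eq_cell, Measure.real, H9.volume_box, ENNReal.toReal_ofReal H9.area_pos.le]

theorem Q_of {v : ℝ} (hv : 0 < v) (z c d : ℂ) : H9.Q (H9.H3.of z v) c d = ar v c d z := by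
  rw [H9.Q, H9.den, H9.H3.of_z, H9.H3.of_v hv, ar]

theorem ar_zero_one (v : ℝ) (z : ℂ) : ar v 0 1 z = 1 / v := by simp [ar]

/-! ### the coefficients at infinity -/

open Classical in
/-- the coefficients of the rows with `c ≠ 0` -/
noncomputable def bI (q c d : O) : ℂ := if c ≠ 0 ∧ (c, d) ∈ H9.PP q then eta c d else 0

theorem bI_zero (q d : O) : bI q 0 d = 0 := if_neg fun h => h.1 rfl

theorem norm_bI_le (q c d : O) : ‖bI q c d‖ ≤ 1 := by
  unfold bI
  split_ifs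
  · exact norm_sym_le c d
  · rw [norm_zero]; exact zero_le_one

theorem bI_eq (q : O) {c : O} (h : c ≠ 0 ∧ (3 : O) ∣ c ∧ q ∣ c) (d : O) :
    bI q c d = ks symDataC c d := by
  unfold bI ks
  by_cases hd : Primary d ∧ IsCoprime c d
  · rw [if_pos hd, if_pos ⟨h.1, hd.2, h.2.1, h.2.2, hd.1⟩]; rfl
  · rw [if_neg hd, if_neg]
    rintro ⟨_, h2, _, _, h5⟩
    exact hd ⟨h5, h2⟩

theorem bI_eq_zero (q : O) {c : O} (h : ¬ (c ≠ 0 ∧ (3 : O) ∣ c ∧ q ∣ c)) (d : O) :
    bI q c d = 0 := by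
  unfold bI
  rw [if_neg]
  rintro ⟨h1, _, h3, h4, _⟩
  exact h ⟨h1, h3, h4⟩

theorem per_bI (q : O) {c : O} (hc : c ≠ 0) : Per (3 * c) (bI q c) := by
  by_cases h : c ≠ 0 ∧ (3 : O) ∣ c ∧ q ∣ c
  · intro x y hxy
    rw [bI_eq q h, bI_eq q h]
    exact per_ks symDataC hc h.2.1 x y hxy
  · intro x y _
    rw [bI_eq_zero q h, bI_eq_zero q h]

theorem ps_zero {M : Type*} [AddCommMonoid M] (q : O) : ps q (fun _ => (0 : M)) = 0 := by
  simp [ps, liftR]

theorem ps_bI_eq_zero (q : O) {c : O}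
    (h : ¬ (c ≠ 0 ∧ (∃ ν : O, c = ν ^ 3) ∧ (3 : O) ∣ c ∧ q ∣ c)) :
    ps (3 * c) (bI q c) = 0 := by
  by_cases h1 : c ≠ 0 ∧ (3 : O) ∣ c ∧ q ∣ c
  · have : NeZero c := ⟨h1.1⟩
    have e : bI q c = ks symDataC c := funext (bI_eq q h1)
    rw [e, ps_eq]
    exact cst_eq_zero h1.2.1 fun h2 => h ⟨h1.1, h2, h1.2⟩
  · have e : bI q c = fun _ => 0 := funext (bI_eq_zero q h1)
    rw [e, ps_zero]

theorem ps_bI_cube (q : O) {c : O} (hc : c ≠ 0) (h : ∃ ν : O, c = ν ^ 3)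
    (h1 : (3 : O) ∣ c ∧ q ∣ c) : ps (3 * c) (bI q c) = ((N c * beta c : ℝ) : ℂ) := by
  have : NeZero c := ⟨hc⟩
  have e : bI q c = ks symDataC c := funext (bI_eq q ⟨hc, h1⟩)
  obtain ⟨ν, hν⟩ := h
  have hν0 : ν ≠ 0 := by
    rintro rfl
    exact hc (by rw [hν]; ring)
  rw [e, ps_eq]
  have h2 := cst_cube hν h1.1
  rw [show beta c = beta ν by rw [hν, beta_pow3 hν0]]
  exact h2

/-! ### the constant term at infinity -/

theorem three_dvd_cube_iff {m : O} : (3 : O) ∣ m ^ 3 ↔ lam ∣ m := by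
  constructor
  · exact lam_dvd_of_three_dvd_cube
  · intro h
    have h1 : lam ^ 3 ∣ m ^ 3 := pow_dvd_pow_of_dvd h 3
    have h2 : lam ^ 3 = 3 * ⟨-1, -2⟩ := by decide
    exact (Dvd.intro _ h2.symm).trans h1

theorem E_eq_add {q : O} {f : ℝ → ℂ} {v : ℝ} (hv : 0 < v) {z : ℂ}
    (hs : Summable fun p : O × O => ‖bI q p.1 p.2 * f (ar v (toC p.1) (toC p.2) z)‖) :
    H9.E q eta f (H9.H3.of z v)
      = f (1 / v) + ∑' p : O × O, bI q p.1 p.2 * f (ar v (toC p.1) (toC p.2) z) := by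
  classical
  have h1 : HasSum (fun p : O × O => (if p = (0, 1) then f (1 / v) else 0)
      + bI q p.1 p.2 * f (ar v (toC p.1) (toC p.2) z))
      (f (1 / v) + ∑' p : O × O, bI q p.1 p.2 * f (ar v (toC p.1) (toC p.2) z)) :=
    (hasSum_ite_eq (0, 1) _).add hs.of_norm.hasSum
  rw [← h1.tsum_eq, H9.E]
  rw [tsum_subtype (H9.PP q) (fun p : O × O =>
    eta p.1 p.2 * f (H9.Q (H9.H3.of z v) (toC p.1) (toC p.2)))]
  refine tsum_congr fun p => ?_
  obtain ⟨c, d⟩ := p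
  by_cases hp : (c, d) ∈ H9.PP q
  · rw [indicator_of_mem hp, Q_of hv]
    simp only
    by_cases hc : c = 0
    · subst hc
      have hd : d = 1 := by
        obtain ⟨h1, _, _, h4⟩ := hp
        exact Primary.eq_one h4 (isCoprime_zero_left.1 h1)
      subst hd
      rw [if_pos rfl, bI_zero, map_zero, map_one, ar_zero_one, eta_zero_one]
      ring
    · rw [if_neg, zero_add, bI, if_pos ⟨hc, hp⟩]
      intro h
      exact hc (congrArg Prod.fst h)
  · have e1 : bI q c d = 0 := if_neg fun h => hp h.2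
    rw [indicator_of_notMem hp, if_neg]
    · simp only [e1]
      ring
    · intro h
      apply hp
      rw [h]
      exact ⟨isCoprime_one_right, dvd_zero _, dvd_zero _, by simp⟩

variable {f : ℝ → ℂ} {C v : ℝ}

theorem ct_infty (hv : 0 < v) (hf : Cls f C) {q : O} (hq : ∀ m : O, q ∣ m ^ 3 → q ∣ m) :
    Integrable (fun z => H9.E q eta f (H9.H3.of z v)) (volume.restrict (cell 3)) ∧
    ∫ z in cell 3, H9.E q eta f (H9.H3.of z v) = (H9.area : ℂ) * f (1 / v)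
      + ((Real.pi * v / 3 : ℝ) : ℂ) * ∑' m : O, mt f v (fun m => lam ∣ m ∧ q ∣ m) m := by
  have h := double hv hf (k := 3) (l := 1) (by norm_num) (b := bI q) (bI_zero q)
    (fun c hc => per_bI q hc) (norm_bI_le q)
  simp only [one_mul] at h
  obtain ⟨h1, h2, h3⟩ := h
  have hfin : volume (cell 3) ≠ ⊤ := by
    rw [← box_eq_cell, H9.volume_box]; exact ENNReal.ofReal_ne_top
  have hc : Integrable (fun _ : ℂ => f (1 / v)) (volume.restrict (cell 3)) :=
    integrableOn_const hfin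
  have e : (fun z => H9.E q eta f (H9.H3.of z v)) =ᵐ[volume.restrict (cell 3)]
      fun z => f (1 / v) + ∑' p : O × O, bI q p.1 p.2 * f (ar v (toC p.1) (toC p.2) z) := by
    filter_upwards [h1] with z hz
    exact E_eq_add hv hz
  refine ⟨(hc.add h2).congr e.symm, ?_⟩
  rw [integral_congr_ae e, integral_add hc h2, setIntegral_const, volume_cell3, real_smul]
  congr 1
  rw [← h3.tsum_eq, tsum_rows hv hf (R := fun c => (3 : O) ∣ c ∧ q ∣ c)
    (fun c hc => ps_bI_eq_zero q hc) (fun c hc hν h1 => ps_bI_cube q hc hν h1)]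
  congr 2
  apply mt_congr
  intro m _
  rw [three_dvd_cube_iff]
  refine and_congr_right fun _ => ⟨hq m, fun h => h.trans (dvd_pow_self m three_ne_zero)⟩

end Vale.Agent.P006.KU.CT
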