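import Vale.Agent.P006.KU.Abstract
import Mathlib.LinearAlgebra.Matrix.SpecialLinearGroup
import Mathlib.Tactic

/-!
P006, block KU: the group `Gamma3 ⊂ SL2(O)` of matrices `≡ 1 mod 3`, the Kubota character on it,
cosets by bottom rows, conjugation by `S`, translations.
-/

namespace Vale.Agent.P006.KU

open Matrix

section Group

variable (O : Type*) [CommRing O]

/-- the group of matrices of determinant one congruent to the identity modulo `3` -/
def Gamma3 : Subgroup (SpecialLinearGroup (Fin 2) O) where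
  carrier := {g | (3 : O) ∣ g 0 0 - 1 ∧ (3 : O) ∣ g 0 1 ∧ (3 : O) ∣ g 1 0 ∧ (3 : O) ∣ g 1 1 - 1}
  mul_mem' := by
    rintro g h ⟨g1, g2, g3, g4⟩ ⟨h1, h2, h3, h4⟩
    simp only [Set.mem_ofPred_eq, SpecialLinearGroup.coe_mul, Matrix.mul_apply, Fin.sum_univ_two]
    refine ⟨?_, ?_, ?_, ?_⟩
    · have : g 0 0 * h 0 0 + g 0 1 * h 1 0 - 1
        = (g 0 0 - 1) * h 0 0 + (h 0 0 - 1) + g 0 1 * h 1 0 := by ring
      rw [this]
      exact dvd_add (dvd_add (g1.mul_right _) h1) (g2.mul_right _)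
    · exact dvd_add (h2.mul_left _) (g2.mul_right _)
    · exact dvd_add (g3.mul_right _) (h3.mul_left _)
    · have : g 1 0 * h 0 1 + g 1 1 * h 1 1 - 1
        = g 1 0 * h 0 1 + ((g 1 1 - 1) * h 1 1 + (h 1 1 - 1)) := by ring
      rw [this]
      exact dvd_add (g3.mul_right _) (dvd_add (g4.mul_right _) h4)
  one_mem' := by
    simp
  inv_mem' := by
    rintro g ⟨g1, g2, g3, g4⟩
    simp only [Set.mem_ofPred_eq, SpecialLinearGroup.coe_inv, Matrix.adjugate_fin_two]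
    simp only [Matrix.of_apply, Matrix.cons_val', Matrix.cons_val_zero, Matrix.cons_val_one,
      Matrix.cons_val_fin_one, dvd_neg]
    exact ⟨g4, g2, g3, g1⟩

variable {O}

theorem mem_Gamma3 {g : SpecialLinearGroup (Fin 2) O} : g ∈ Gamma3 O ↔
    (3 : O) ∣ g 0 0 - 1 ∧ (3 : O) ∣ g 0 1 ∧ (3 : O) ∣ g 1 0 ∧ (3 : O) ∣ g 1 1 - 1 := Iff.rfl

theorem det_eq (g : SpecialLinearGroup (Fin 2) O) : g 0 0 * g 1 1 - g 0 1 * g 1 0 = 1 := by
  have := g.det_coe
  rwa [Matrix.det_fin_two] at this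

theorem isCoprime_row (g : SpecialLinearGroup (Fin 2) O) : IsCoprime (g 1 0) (g 1 1) :=
  ⟨-g 0 1, g 0 0, by linear_combination det_eq g⟩

/-- the matrix with given entries -/
def mk2 (a b c d : O) (h : a * d - b * c = 1) : SpecialLinearGroup (Fin 2) O :=
  ⟨!![a, b; c, d], by rw [Matrix.det_fin_two_of]; exact h⟩

section
variable (a b c d : O) (h : a * d - b * c = 1)
@[simp] theorem mk2_00 : mk2 a b c d h 0 0 = a := rfl
@[simp] theorem mk2_01 : mk2 a b c d h 0 1 = b := rfl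
@[simp] theorem mk2_10 : mk2 a b c d h 1 0 = c := rfl
@[simp] theorem mk2_11 : mk2 a b c d h 1 1 = d := rfl
end

theorem ext2 {g h : SpecialLinearGroup (Fin 2) O} (h1 : g 0 0 = h 0 0) (h2 : g 0 1 = h 0 1)
    (h3 : g 1 0 = h 1 0) (h4 : g 1 1 = h 1 1) : g = h := by
  apply SpecialLinearGroup.ext
  intro i j
  fin_cases i <;> fin_cases j <;> assumption

theorem mul_00 (g h : SpecialLinearGroup (Fin 2) O) :
    (g * h) 0 0 = g 0 0 * h 0 0 + g 0 1 * h 1 0 := by
  simp [Matrix.mul_apply, Fin.sum_univ_two]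

theorem mul_01 (g h : SpecialLinearGroup (Fin 2) O) :
    (g * h) 0 1 = g 0 0 * h 0 1 + g 0 1 * h 1 1 := by
  simp [Matrix.mul_apply, Fin.sum_univ_two]

theorem mul_10 (g h : SpecialLinearGroup (Fin 2) O) :
    (g * h) 1 0 = g 1 0 * h 0 0 + g 1 1 * h 1 0 := by
  simp [Matrix.mul_apply, Fin.sum_univ_two]

theorem mul_11 (g h : SpecialLinearGroup (Fin 2) O) :
    (g * h) 1 1 = g 1 0 * h 0 1 + g 1 1 * h 1 1 := by
  simp [Matrix.mul_apply, Fin.sum_univ_two]

theorem inv_00 (g : SpecialLinearGroup (Fin 2) O) : g⁻¹ 0 0 = g 1 1 := by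
  simp [SpecialLinearGroup.coe_inv, Matrix.adjugate_fin_two]

theorem inv_01 (g : SpecialLinearGroup (Fin 2) O) : g⁻¹ 0 1 = - g 0 1 := by
  simp [SpecialLinearGroup.coe_inv, Matrix.adjugate_fin_two]

theorem inv_10 (g : SpecialLinearGroup (Fin 2) O) : g⁻¹ 1 0 = - g 1 0 := by
  simp [SpecialLinearGroup.coe_inv, Matrix.adjugate_fin_two]

theorem inv_11 (g : SpecialLinearGroup (Fin 2) O) : g⁻¹ 1 1 = g 0 0 := by
  simp [SpecialLinearGroup.coe_inv, Matrix.adjugate_fin_two]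

/-- the translation `(1 x; 0 1)` -/
def tr (x : O) : SpecialLinearGroup (Fin 2) O := mk2 1 x 0 1 (by ring)

@[simp] theorem tr_zero : tr (0 : O) = 1 := ext2 (by simp [tr]) (by simp [tr]) (by simp [tr])
  (by simp [tr])

theorem tr_add (x y : O) : tr (x + y) = tr x * tr y := by
  apply ext2 <;> simp only [mul_00, mul_01, mul_10, mul_11, tr, mk2_00, mk2_01, mk2_10, mk2_11] <;>
    ring

theorem tr_neg (x : O) : tr (-x) = (tr x)⁻¹ := by
  rw [eq_inv_iff_mul_eq_one, ← tr_add]; simp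

theorem tr_mem {x : O} : tr x ∈ Gamma3 O ↔ (3 : O) ∣ x := by
  rw [mem_Gamma3]; simp [tr]

/-- the group of translations in `Gamma3` -/
def GammaInf (O : Type*) [CommRing O] : Subgroup (Gamma3 O) where
  carrier := {g | ∃ x : O, (3 : O) ∣ x ∧ (g : SpecialLinearGroup (Fin 2) O) = tr x}
  mul_mem' := by
    rintro g h ⟨x, hx, hgx⟩ ⟨y, hy, hgy⟩
    exact ⟨x + y, dvd_add hx hy, by rw [Subgroup.coe_mul, hgx, hgy, tr_add]⟩
  one_mem' := ⟨0, dvd_zero _, by simp⟩
  inv_mem' := by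
    rintro g ⟨x, hx, hgx⟩
    exact ⟨-x, (dvd_neg).2 hx, by rw [Subgroup.coe_inv, hgx, tr_neg]⟩

/-- two matrices with the same bottom row differ by a translation on the left -/
theorem eq_tr_mul_of_row {g h : SpecialLinearGroup (Fin 2) O} (h0 : g 1 0 = h 1 0)
    (h1 : g 1 1 = h 1 1) : g = tr (h 0 0 * g 0 1 - h 0 1 * g 0 0) * h := by
  have dg := det_eq g
  have dh := det_eq h
  rw [h0, h1] at dg
  apply ext2
  · rw [mul_00]; simp only [tr, mk2_00, mk2_01]
    linear_combination (h 0 0) * dg - (g 0 0) * dh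
  · rw [mul_01]; simp only [tr, mk2_00, mk2_01]
    linear_combination (h 0 1) * dg - (g 0 1) * dh
  · rw [mul_10]; simp only [tr, mk2_10, mk2_11]; rw [h0]; ring
  · rw [mul_11]; simp only [tr, mk2_10, mk2_11]; rw [h1]; ring

/-- every coprime row `(c, d)`, `3 ∣ c`, `d ≡ 1 mod 3`, is the bottom row of an element of
`Gamma3` -/
theorem exists_row {c d : O} (hc : (3 : O) ∣ c) (hd : (3 : O) ∣ d - 1) (h : IsCoprime c d) :
    ∃ g ∈ Gamma3 O, g 1 0 = c ∧ g 1 1 = d := by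
  obtain ⟨u, v, huv⟩ := h
  -- `v d + u c = 1`, so `a0 = v`, `b0 = -u`
  refine ⟨mk2 (v + u * c) (-u + u * d) c d (by linear_combination huv), ?_, rfl, rfl⟩
  rw [mem_Gamma3]
  simp only [mk2_00, mk2_01, mk2_10, mk2_11]
  refine ⟨?_, ?_, hc, hd⟩
  · have : v + u * c - 1 = -(v * (d - 1)) := by linear_combination huv
    rw [this, dvd_neg]; exact hd.mul_left _
  · have : -u + u * d = u * (d - 1) := by ring
    rw [this]; exact hd.mul_left _

end Group

section Character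

variable {O : Type*} [CommRing O] [IsDomain O] [IsPrincipalIdealRing O] {M : Type*}
  [CommMonoidWithZero M] (D : SymData O M)

/-- the Kubota character `(a b; c d) ↦ (c/d)_3` -/
noncomputable def kappa : Gamma3 O →* M where
  toFun g := D.sym ((g : SpecialLinearGroup (Fin 2) O) 1 0) ((g : SpecialLinearGroup (Fin 2) O) 1 1)
  map_one' := by simp [D.sym_one]
  map_mul' := by
    rintro ⟨g, g1, g2, g3, g4⟩ ⟨h, h1, h2, h3, h4⟩
    simp only [Subgroup.coe_mul, mul_10, mul_11]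
    exact D.row_mul g3 g4 h2 h4 (isCoprime_row g) (det_eq h)

theorem kappa_apply (g : Gamma3 O) : kappa D g =
    D.sym ((g : SpecialLinearGroup (Fin 2) O) 1 0) ((g : SpecialLinearGroup (Fin 2) O) 1 1) := rfl

theorem kappa_cube (g : Gamma3 O) : kappa D g ^ 3 = 1 :=
  D.cube _ _ g.2.2.2.2 (isCoprime_row _)

theorem isUnit_kappa (g : Gamma3 O) : IsUnit (kappa D g) :=
  D.isUnit_sym g.2.2.2.2 (isCoprime_row _)

theorem kappa_inv_mul (g : Gamma3 O) : kappa D g⁻¹ * kappa D g = 1 := by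
  rw [← map_mul]; simp

theorem kappa_mul_inv (g : Gamma3 O) : kappa D g * kappa D g⁻¹ = 1 := by
  rw [← map_mul]; simp

theorem kappa_of_translation {g : Gamma3 O} (hg : g ∈ GammaInf O) : kappa D g = 1 := by
  obtain ⟨x, _, hgx⟩ := hg
  rw [kappa_apply, hgx]; simp [tr, D.sym_one]

/-- `S = (0 -1; 1 0)` -/
def Smat (O : Type*) [CommRing O] : SpecialLinearGroup (Fin 2) O := mk2 0 (-1) 1 0 (by ring)

omit [IsDomain O] [IsPrincipalIdealRing O] in
theorem S_conj (g : SpecialLinearGroup (Fin 2) O) : (Smat O)⁻¹ * g * Smat O =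
    mk2 (g 1 1) (- g 1 0) (- g 0 1) (g 0 0) (by linear_combination det_eq g) := by
  apply ext2 <;>
    simp only [mul_00, mul_01, mul_10, mul_11, inv_00, inv_01, inv_10, inv_11, Smat, mk2_00,
      mk2_01, mk2_10, mk2_11] <;> ring

omit [IsDomain O] [IsPrincipalIdealRing O] in
theorem S_conj_mem {g : SpecialLinearGroup (Fin 2) O} (hg : g ∈ Gamma3 O) :
    (Smat O)⁻¹ * g * Smat O ∈ Gamma3 O := by
  rw [S_conj, mem_Gamma3]
  simp only [mk2_00, mk2_01, mk2_10, mk2_11, dvd_neg]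
  exact ⟨hg.2.2.2, hg.2.2.1, hg.2.1, hg.1⟩

/-- the Kubota character is invariant under conjugation by `S` -/
theorem kappa_S_conj (g : Gamma3 O) :
    kappa D ⟨(Smat O)⁻¹ * g * Smat O, S_conj_mem g.2⟩ = kappa D g := by
  rw [kappa_apply, kappa_apply]
  have hg := g.2
  rw [mem_Gamma3] at hg
  have h10 : ((Smat O)⁻¹ * (g : SpecialLinearGroup (Fin 2) O) * Smat O) 1 0
      = - (g : SpecialLinearGroup (Fin 2) O) 0 1 := by rw [S_conj]; simp
  have h11 : ((Smat O)⁻¹ * (g : SpecialLinearGroup (Fin 2) O) * Smat O) 1 1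
      = (g : SpecialLinearGroup (Fin 2) O) 0 0 := by rw [S_conj]; simp
  show D.sym (((Smat O)⁻¹ * (g : SpecialLinearGroup (Fin 2) O) * Smat O) 1 0)
    (((Smat O)⁻¹ * (g : SpecialLinearGroup (Fin 2) O) * Smat O) 1 1) = _
  rw [h10, h11, D.neg_left hg.1]
  exact D.sym_ba_eq_sym_cd hg.1 hg.2.1 hg.2.2.1 hg.2.2.2 (det_eq _)

end Character

end Vale.Agent.P006.KU
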