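import Mathlib.RingTheory.PrincipalIdealDomain
import Mathlib.RingTheory.Ideal.Operations
import Mathlib.RingTheory.UniqueFactorizationDomain.Basic
import Mathlib.Algebra.BigOperators.Associated
import Mathlib.Tactic

/-!
P006, block KU: the Kubota character, from an abstract interface of the cubic residue symbol.
-/

namespace Vale.Agent.P006.KU

/-- Abstract interface of a cubic residue symbol `sym a b = (a/b)_3`, `b` primary
(`b ≡ 1 mod 3`), on a principal ideal domain. -/
structure SymData (O : Type*) [CommRing O] (M : Type*) [CommMonoidWithZero M] where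
  sym : O → O → M
  lam : O
  mul_left : ∀ a a' b : O, (3 : O) ∣ b - 1 → sym (a * a') b = sym a b * sym a' b
  mul_right : ∀ a b b' : O, (3 : O) ∣ b - 1 → (3 : O) ∣ b' - 1 →
    sym a (b * b') = sym a b * sym a b'
  congr : ∀ a a' b : O, (3 : O) ∣ b - 1 → b ∣ a - a' → sym a b = sym a' b
  cube : ∀ a b : O, (3 : O) ∣ b - 1 → IsCoprime a b → sym a b ^ 3 = 1
  recip : ∀ a b : O, (3 : O) ∣ a - 1 → (3 : O) ∣ b - 1 → sym a b = sym b a
  unit9 : ∀ u b b' : O, IsUnit u → (3 : O) ∣ b - 1 → (9 : O) ∣ b - b' → sym u b = sym u b'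
  lam9 : ∀ b b' : O, (3 : O) ∣ b - 1 → (9 : O) ∣ b - b' → sym lam b = sym lam b'
  neg_one : ∀ b : O, (3 : O) ∣ b - 1 → sym (-1) b = 1
  factor : ∀ c : O, c ≠ 0 → ∃ (u c0 : O) (k : ℕ), IsUnit u ∧ (3 : O) ∣ c0 - 1 ∧
    c = u * lam ^ k * c0
  unit_one : ∀ u : O, IsUnit u → (3 : O) ∣ u - 1 → u = 1
  gen : ∀ x : O, x ∈ AddSubgroup.closure {u : O | IsUnit u}
  three : ¬ IsUnit (3 : O)

/-- Dirichlet-free coprimality: a linear expression can be made coprime to `N`. -/
theorem exists_isCoprime_add_mul {O : Type*} [CommRing O] [IsDomain O] [IsPrincipalIdealRing O]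
    {c e N : O} (hN : N ≠ 0) (h : ∀ p : O, Prime p → p ∣ N → p ∣ c → ¬ p ∣ e) :
    ∃ t : O, IsCoprime (c + e * t) N := by
  classical
  set F := (UniqueFactorizationMonoid.factors N).filter (fun q => ¬ q ∣ c) with hF
  refine ⟨F.prod, isCoprime_of_prime_dvd (fun hx => hN hx.2) ?_⟩
  intro p hp hpc hpN
  by_cases hc : p ∣ c
  · have h1 : p ∣ e * F.prod := (dvd_add_right hc).1 hpc
    rcases hp.dvd_or_dvd h1 with h2 | h2
    · exact h p hp hpN hc h2
    · obtain ⟨q, hq, hpq⟩ := hp.exists_mem_multiset_dvd h2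
      rw [hF, Multiset.mem_filter] at hq
      have hqp : Prime q := UniqueFactorizationMonoid.prime_of_factor q hq.1
      have : Associated p q := hp.irreducible.associated_of_dvd hqp.irreducible hpq
      exact hq.2 (this.symm.dvd.trans hc)
  · obtain ⟨q, hq, hpq⟩ := UniqueFactorizationMonoid.exists_mem_factors_of_dvd hN hp.irreducible hpN
    have hqc : ¬ q ∣ c := fun hh => hc (hpq.dvd.trans hh)
    have : q ∣ F.prod := Multiset.dvd_prod (by rw [hF, Multiset.mem_filter]; exact ⟨hq, hqc⟩)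
    exact hc ((dvd_add_left ((hpq.dvd.trans this).mul_left e)).1 hpc)

namespace SymData

variable {O : Type*} [CommRing O] {M : Type*} [CommMonoidWithZero M] (D : SymData O M)

theorem one_left {b : O} (hb : (3 : O) ∣ b - 1) : D.sym 1 b = 1 := by
  have h1 : D.sym 1 b = D.sym 1 b * D.sym 1 b := by
    have := D.mul_left 1 1 b hb
    simpa using this
  have h3 : D.sym 1 b ^ 3 = 1 := D.cube 1 b hb isCoprime_one_left
  calc D.sym 1 b = D.sym 1 b * D.sym 1 b := h1
    _ = D.sym 1 b * D.sym 1 b * D.sym 1 b := by rw [← h1]; exact h1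
    _ = D.sym 1 b ^ 3 := by rw [pow_succ, pow_two]
    _ = 1 := h3

theorem pow_left {a b : O} (hb : (3 : O) ∣ b - 1) (k : ℕ) :
    D.sym (a ^ k) b = D.sym a b ^ k := by
  induction k with
  | zero => simpa using D.one_left hb
  | succ k ih => rw [pow_succ, D.mul_left _ _ _ hb, ih, pow_succ]

theorem isUnit_sym {a b : O} (hb : (3 : O) ∣ b - 1) (h : IsCoprime a b) :
    IsUnit (D.sym a b) := by
  have := D.cube a b hb h
  exact IsUnit.of_mul_eq_one (D.sym a b ^ 2) (by rw [← pow_succ']; exact this)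

theorem prim_mul {b b' : O} (hb : (3 : O) ∣ b - 1) (hb' : (3 : O) ∣ b' - 1) :
    (3 : O) ∣ b * b' - 1 := by
  have : b * b' - 1 = (b - 1) * b' + (b' - 1) := by ring
  rw [this]
  exact dvd_add (hb.mul_right _) hb'

/-- the value `(c/b)` depends only on `b` modulo `c` and modulo `9` -/
theorem congr_right {c b b' : O} (hc0 : c ≠ 0) (hb : (3 : O) ∣ b - 1) (h9 : (9 : O) ∣ b - b')
    (hc : c ∣ b - b') : D.sym c b = D.sym c b' := by
  have hb' : (3 : O) ∣ b' - 1 := by
    have h39 : (3 : O) ∣ 9 := ⟨3, by norm_num⟩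
    have : b' - 1 = (b - 1) - (b - b') := by ring
    rw [this]
    exact dvd_sub hb (h39.trans h9)
  obtain ⟨u, c0, k, hu, hc0', rfl⟩ := D.factor c hc0
  rw [D.mul_left _ _ _ hb, D.mul_left _ _ _ hb, D.mul_left _ _ _ hb', D.mul_left _ _ _ hb',
    D.pow_left hb, D.pow_left hb', D.unit9 u b b' hu hb h9, D.lam9 b b' hb h9,
    D.recip c0 b hc0' hb, D.recip c0 b' hc0' hb']
  congr 1
  exact D.congr b b' c0 hc0' ((Dvd.intro_left _ rfl).trans hc)

/-- if `b ≡ 1` modulo `c` and modulo `9` then `(c/b) = 1` -/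
theorem eq_one_of_modEq {c b : O} (hc0 : c ≠ 0) (h9 : (9 : O) ∣ b - 1) (hc : c ∣ b - 1) :
    D.sym c b = 1 := by
  have h39 : (3 : O) ∣ 9 := ⟨3, by norm_num⟩
  rw [D.congr_right hc0 (h39.trans h9) h9 hc]
  have h1 : (3 : O) ∣ (1 : O) - 1 := by simp
  have : D.sym c 1 = D.sym 1 1 := D.congr c 1 1 h1 (one_dvd _)
  rw [this, D.one_left h1]

theorem sym_one (a : O) : D.sym a 1 = 1 := by
  have h1 : (3 : O) ∣ (1 : O) - 1 := by simp
  rw [D.congr a 1 1 h1 (one_dvd _), D.one_left h1]

theorem coprime_three {d : O} (hd : (3 : O) ∣ d - 1) : IsCoprime (3 : O) d := by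
  obtain ⟨t, ht⟩ := hd
  exact ⟨-t, 1, by linear_combination ht⟩

/-- the cocycle identity in the coprime case -/
theorem row_mul_of_coprime {c d a' b' c' d' : O} (hc : (3 : O) ∣ c) (hd : (3 : O) ∣ d - 1)
    (hb' : (3 : O) ∣ b') (hd' : (3 : O) ∣ d' - 1)
    (hcd : IsCoprime c d) (hdet : a' * d' - b' * c' = 1) (hcop : IsCoprime c d') :
    D.sym (c * a' + d * c') (c * b' + d * d') = D.sym c d * D.sym c' d' := by
  have h9 : (9 : O) ∣ c * b' := by
    have h : (9 : O) = 3 * 3 := by norm_num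
    rw [h]; exact mul_dvd_mul hc hb'
  have h39 : (3 : O) ∣ 9 := ⟨3, by norm_num⟩
  have hdd : (3 : O) ∣ d * d' - 1 := prim_mul hd hd'
  have hDD : (3 : O) ∣ (c * b' + d * d') - 1 := by
    have : (c * b' + d * d') - 1 = c * b' + (d * d' - 1) := by ring
    rw [this]; exact dvd_add (h39.trans h9) hdd
  by_cases hc0 : c = 0
  · subst hc0
    have hdu : IsUnit d := isCoprime_zero_left.1 hcd
    have hd1 : d = 1 := D.unit_one d hdu hd
    subst hd1
    simp [D.sym_one]
  -- the three factors
  have e1 : D.sym c (c * b' + d * d') = D.sym c d * D.sym c d' := by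
    rw [D.congr_right hc0 hDD (b' := d * d') (by simpa using h9) (by simp),
      D.mul_right _ _ _ hd hd']
  have e2 : D.sym d' (c * b' + d * d') = D.sym c d' * D.sym b' d' := by
    rw [D.recip _ _ hd' hDD, D.congr (c * b' + d * d') (c * b') d' hd' (by simp),
      D.mul_left _ _ _ hd']
  have e3 : D.sym b' d' * D.sym c' d' = 1 := by
    rw [← D.mul_left _ _ _ hd', D.congr (b' * c') (-1) d' hd' ⟨a', by linear_combination -hdet⟩,
      D.neg_one d' hd']
  have e4 : D.sym d' (c * b' + d * d') * D.sym (c * a' + d * c') (c * b' + d * d')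
      = D.sym c (c * b' + d * d') := by
    rw [← D.mul_left _ _ _ hDD]
    exact D.congr _ _ _ hDD ⟨c', by linear_combination c * hdet⟩
  have hu : IsUnit (D.sym c d') := D.isUnit_sym hd' hcop
  rw [e1, e2] at e4
  have e5 : D.sym b' d' * D.sym (c * a' + d * c') (c * b' + d * d') = D.sym c d := by
    apply hu.mul_left_cancel
    calc D.sym c d' * (D.sym b' d' * D.sym (c * a' + d * c') (c * b' + d * d'))
        = D.sym c d' * D.sym b' d' * D.sym (c * a' + d * c') (c * b' + d * d') := by
          rw [mul_assoc]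
      _ = D.sym c d * D.sym c d' := e4
      _ = D.sym c d' * D.sym c d := mul_comm _ _
  calc D.sym (c * a' + d * c') (c * b' + d * d')
      = (D.sym b' d' * D.sym c' d') * D.sym (c * a' + d * c') (c * b' + d * d') := by
        rw [e3, one_mul]
    _ = (D.sym b' d' * D.sym (c * a' + d * c') (c * b' + d * d')) * D.sym c' d' := by
        rw [mul_right_comm]
    _ = D.sym c d * D.sym c' d' := by rw [e5]

/-- right multiplication of the row by a lower unipotent matrix -/
theorem row_lower {a' b' c' d' : O} (hb' : (3 : O) ∣ b') (hd' : (3 : O) ∣ d' - 1)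
    (hdet : a' * d' - b' * c' = 1) (x : O) :
    D.sym (c' + 3 * x * a') (d' + 3 * x * b') = D.sym c' d' := by
  have key : ∀ u : O, IsUnit u → ∀ c' d' : O, (3 : O) ∣ d' - 1 → a' * d' - b' * c' = 1 →
      D.sym (c' + 3 * u * a') (d' + 3 * u * b') = D.sym c' d' := by
    intro u hu c' d' hd' hdet
    have h1 : (3 : O) ∣ (1 : O) - 1 := by simp
    have := D.row_mul_of_coprime (c := 3 * u) (d := 1) (a' := a') (b' := b') (c' := c')
      (d' := d') (Dvd.intro _ rfl) h1 hb' hd' isCoprime_one_right hdet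
      ((isCoprime_mul_unit_right_left hu 3 d').2 (coprime_three hd'))
    rw [D.sym_one, one_mul, one_mul, one_mul, add_comm (3 * u * a'),
      add_comm (3 * u * b')] at this
    exact this
  have h9 : ∀ x : O, (9 : O) ∣ 3 * x * b' := by
    intro x
    have h : (9 : O) = 3 * 3 := by norm_num
    rw [h, mul_assoc]; exact mul_dvd_mul (dvd_refl _) (hb'.mul_left _)
  have h39 : (3 : O) ∣ 9 := ⟨3, by norm_num⟩
  have hall : ∀ x ∈ AddSubgroup.closure {u : O | IsUnit u}, ∀ c' d' : O, (3 : O) ∣ d' - 1 →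
      a' * d' - b' * c' = 1 →
      D.sym (c' + 3 * x * a') (d' + 3 * x * b') = D.sym c' d' := by
    intro x hx
    induction hx using AddSubgroup.closure_induction with
    | mem u hu => exact key u hu
    | zero => intro c' d' _ _; simp
    | add x y _ _ ihx ihy =>
      intro c' d' hd' hdet
      have hd'' : (3 : O) ∣ (d' + 3 * x * b') - 1 := by
        have : (d' + 3 * x * b') - 1 = (d' - 1) + 3 * x * b' := by ring
        rw [this]; exact dvd_add hd' (h39.trans (h9 x))
      have := ihy (c' + 3 * x * a') (d' + 3 * x * b') hd'' (by linear_combination hdet)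
      rw [ihx c' d' hd' hdet] at this
      rw [← this]
      congr 1 <;> ring
    | neg x _ ihx =>
      intro c' d' hd' hdet
      have hd'' : (3 : O) ∣ (d' + 3 * (-x) * b') - 1 := by
        have : (d' + 3 * (-x) * b') - 1 = (d' - 1) + 3 * (-x) * b' := by ring
        rw [this]; exact dvd_add hd' (h39.trans (h9 _))
      have := ihx (c' + 3 * (-x) * a') (d' + 3 * (-x) * b') hd'' (by linear_combination hdet)
      rw [← this]
      congr 1 <;> ring
  exact hall x (D.gen x) c' d' hd' hdet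

theorem coprime_bottom {a' b' c' d' c d : O} (hcd : IsCoprime c d)
    (hdet : a' * d' - b' * c' = 1) : IsCoprime (c * a' + d * c') (c * b' + d * d') := by
  obtain ⟨u, v, huv⟩ := hcd
  exact ⟨u * d' - v * b', v * a' - u * c', by linear_combination (a' * d' - b' * c') * huv + hdet⟩

/-- the cocycle identity on bottom rows: multiplicativity of the Kubota character -/
theorem row_mul [IsDomain O] [IsPrincipalIdealRing O] {c d a' b' c' d' : O}
    (hc : (3 : O) ∣ c) (hd : (3 : O) ∣ d - 1)
    (hb' : (3 : O) ∣ b') (hd' : (3 : O) ∣ d' - 1)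
    (hcd : IsCoprime c d) (hdet : a' * d' - b' * c' = 1) :
    D.sym (c * a' + d * c') (c * b' + d * d') = D.sym c d * D.sym c' d' := by
  have h9 : (3 : O) ∣ c * b' := hc.mul_right _
  have hDD : (3 : O) ∣ (c * b' + d * d') - 1 := by
    have : (c * b' + d * d') - 1 = c * b' + (d * d' - 1) := by ring
    rw [this]; exact dvd_add h9 (prim_mul hd hd')
  have hD0 : c * b' + d * d' ≠ 0 := by
    intro h0
    rw [h0, zero_sub, dvd_neg] at hDD
    exact D.three (isUnit_of_dvd_one hDD)
  obtain ⟨t, ht⟩ := exists_isCoprime_add_mul (c := c) (e := 3 * d) hD0 (by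
    intro p hp hpD hpc hpe
    rcases hp.dvd_or_dvd hpe with h3 | hpd
    · exact hp.not_isUnit ((coprime_three hDD).isUnit_of_dvd' h3 hpD)
    · exact hp.not_isUnit (hcd.isUnit_of_dvd' hpc hpd))
  set y := 3 * t with hy
  have e1 : c + 3 * d * t = c + d * y := by rw [hy]; ring
  rw [e1] at ht
  have e2 : c * b' + d * d' = d * (d' - y * b') + (c + d * y) * b' := by ring
  have hcop : IsCoprime (c + d * y) (d' - y * b') := by
    rw [e2] at ht
    exact (IsCoprime.of_add_mul_left_right ht).of_mul_right_right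
  have h3y : (3 : O) ∣ y := ⟨t, hy⟩
  have hcy : (3 : O) ∣ c + d * y := dvd_add hc (h3y.mul_left _)
  have hdy : (3 : O) ∣ (d' - y * b') - 1 := by
    have : (d' - y * b') - 1 = (d' - 1) - y * b' := by ring
    rw [this]; exact dvd_sub hd' (h3y.mul_right _)
  have hcdy : IsCoprime (c + d * y) d := by
    have := hcd.add_mul_left_left y
    exact this
  have key := D.row_mul_of_coprime (a' := a') (b' := b') (c' := c' - y * a')
    (d' := d' - y * b') hcy hd hb' hdy hcdy (by linear_combination hdet) hcop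
  have e3 : (c + d * y) * a' + d * (c' - y * a') = c * a' + d * c' := by ring
  have e4 : (c + d * y) * b' + d * (d' - y * b') = c * b' + d * d' := by ring
  rw [e3, e4] at key
  rw [key, D.congr (c + d * y) c d hd (by simp)]
  congr 1
  have := D.row_lower (a' := a') (b' := b') (c' := c') (d' := d') hb' hd' hdet (-t)
  rw [← this]
  congr 1 <;> (rw [hy]; ring)

/-- `(c/a) (c/d) = 1` -/
theorem sym_ca_mul_sym_cd {a b c d : O} (ha : (3 : O) ∣ a - 1) (hb : (3 : O) ∣ b)
    (hc : (3 : O) ∣ c) (hd : (3 : O) ∣ d - 1) (hdet : a * d - b * c = 1) :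
    D.sym c a * D.sym c d = 1 := by
  have h9 : (9 : O) ∣ b * c := by
    have h : (9 : O) = 3 * 3 := by norm_num
    rw [h]; exact mul_dvd_mul hb hc
  have had : a * d - 1 = b * c := by linear_combination hdet
  rw [← D.mul_right _ _ _ ha hd]
  by_cases hc0 : c = 0
  · subst hc0
    have : a * d = 1 := by linear_combination hdet
    rw [this, D.sym_one]
  · exact D.eq_one_of_modEq hc0 (by rw [had]; exact h9) (by rw [had]; simp)

/-- `(b/a) (c/a) = 1` -/
theorem sym_ba_mul_sym_ca {a b c d : O} (ha : (3 : O) ∣ a - 1) (hdet : a * d - b * c = 1) :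
    D.sym b a * D.sym c a = 1 := by
  rw [← D.mul_left _ _ _ ha, D.congr (b * c) (-1) a ha ⟨d, by linear_combination -hdet⟩,
    D.neg_one a ha]

/-- `(b/a) = (c/d)` : invariance of the Kubota character under conjugation by `S` -/
theorem sym_ba_eq_sym_cd {a b c d : O} (ha : (3 : O) ∣ a - 1) (hb : (3 : O) ∣ b)
    (hc : (3 : O) ∣ c) (hd : (3 : O) ∣ d - 1) (hdet : a * d - b * c = 1) :
    D.sym b a = D.sym c d := by
  have h1 := D.sym_ca_mul_sym_cd ha hb hc hd hdet
  have h2 := D.sym_ba_mul_sym_ca (b := b) (c := c) (d := d) ha hdet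
  calc D.sym b a = D.sym b a * (D.sym c a * D.sym c d) := by rw [h1, mul_one]
    _ = (D.sym b a * D.sym c a) * D.sym c d := by rw [mul_assoc]
    _ = D.sym c d := by rw [h2, one_mul]

theorem neg_left {a b : O} (hb : (3 : O) ∣ b - 1) : D.sym (-a) b = D.sym a b := by
  rw [← neg_one_mul, D.mul_left _ _ _ hb, D.neg_one b hb, one_mul]

/-- the cube of the Kubota character is `1` -/
theorem sym_cube {a b c d : O} (hd : (3 : O) ∣ d - 1) (hdet : a * d - b * c = 1) :
    D.sym c d ^ 3 = 1 :=
  D.cube c d hd ⟨-b, a, by linear_combination hdet⟩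

end SymData

end Vale.Agent.P006.KU
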