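import Vale.Agent.P006.GRAM.Cell
import Mathlib.MeasureTheory.Constructions.HaarToSphere
import Mathlib.MeasureTheory.Function.Jacobian
import Mathlib.MeasureTheory.Integral.IntegralEqImproper
import Mathlib.MeasureTheory.Integral.DominatedConvergence

/-!
P006, block KU (constant terms): radial integrals over `ℂ` and sums over the translates of a cell.
-/

namespace Vale.Agent.P006.KU.CT

open MeasureTheory Set Complex
open Vale.Agent.P006 Vale.Agent.P006.GRAM

/-- the argument of `f` in the Eisenstein series -/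
noncomputable def ar (v : ℝ) (c d z : ℂ) : ℝ := (normSq (c * z + d) + normSq c * v ^ 2) / v

variable {E : Type*} [NormedAddCommGroup E] [NormedSpace ℝ E]

section radial

variable {a v : ℝ}

theorem image_par (ha : 0 < a) (hv : 0 < v) :
    (fun y : ℝ => a * (y ^ 2 + v ^ 2) / v) '' Ioi 0 = Ioi (a * v) := by
  ext x
  simp only [mem_image, mem_Ioi]
  constructor
  · rintro ⟨y, hy, rfl⟩
    rw [lt_div_iff₀ hv]
    have : 0 < a * y ^ 2 := by positivity
    nlinarith
  · intro hx
    have h1 : 0 < x * v / a - v ^ 2 := by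
      rw [sub_pos, lt_div_iff₀ ha]
      nlinarith
    refine ⟨√(x * v / a - v ^ 2), Real.sqrt_pos.2 h1, ?_⟩
    rw [Real.sq_sqrt h1.le]
    field_simp
    ring

theorem injOn_par (ha : 0 < a) (hv : 0 < v) :
    InjOn (fun y : ℝ => a * (y ^ 2 + v ^ 2) / v) (Ioi 0) := by
  intro x hx y hy h
  have hx' : 0 < x := hx
  have hy' : 0 < y := hy
  simp only at h
  rw [div_left_inj' hv.ne', mul_right_inj' ha.ne', add_left_inj] at h
  exact (pow_left_inj₀ hx'.le hy'.le two_ne_zero).1 h

theorem hasDeriv_par (x : ℝ) :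
    HasDerivWithinAt (fun y : ℝ => a * (y ^ 2 + v ^ 2) / v) (2 * a / v * x) (Ioi 0) x := by
  have h := ((((hasDerivAt_pow 2 x).add_const (v ^ 2)).const_mul a).div_const v).hasDerivWithinAt
    (s := Ioi 0)
  have e : 2 * a / v * x = a * (((2 : ℕ) : ℝ) * x ^ (2 - 1)) / v := by
    rw [show 2 - 1 = 1 from rfl, pow_one]
    push_cast
    ring
  rw [e]
  exact h

theorem smul_radial_integrableOn (ha : 0 < a) (hv : 0 < v) {f : ℝ → E} :
    IntegrableOn (fun y : ℝ => y • f (a * (y ^ 2 + v ^ 2) / v)) (Ioi 0)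
      ↔ IntegrableOn f (Ioi (a * v)) := by
  rw [← image_par ha hv, integrableOn_image_iff_integrableOn_abs_deriv_smul measurableSet_Ioi
    (fun x _ => hasDeriv_par x) (injOn_par ha hv)]
  have hc : (2 * a / v) ≠ 0 := by positivity
  have e : EqOn (fun x : ℝ => |2 * a / v * x| • f (a * (x ^ 2 + v ^ 2) / v))
      (fun x => (2 * a / v) • (x • f (a * (x ^ 2 + v ^ 2) / v))) (Ioi 0) := by
    intro x hx
    have hx' : 0 < x := hx
    simp only
    rw [abs_of_pos (by positivity), mul_smul]
  rw [integrableOn_congr_fun e measurableSet_Ioi]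
  unfold IntegrableOn
  rw [integrable_fun_smul_iff hc]

theorem smul_radial_integral (ha : 0 < a) (hv : 0 < v) (f : ℝ → E) :
    ∫ y in Ioi (0 : ℝ), y • f (a * (y ^ 2 + v ^ 2) / v)
      = (v / (2 * a)) • ∫ x in Ioi (a * v), f x := by
  rw [← image_par ha hv, integral_image_eq_integral_abs_deriv_smul measurableSet_Ioi
    (fun x _ => hasDeriv_par x) (injOn_par ha hv)]
  have e : EqOn (fun x : ℝ => |2 * a / v * x| • f (a * (x ^ 2 + v ^ 2) / v))
      (fun x => (2 * a / v) • (x • f (a * (x ^ 2 + v ^ 2) / v))) (Ioi 0) := by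
    intro x hx
    have hx' : 0 < x := hx
    simp only
    rw [abs_of_pos (by positivity), mul_smul]
  rw [setIntegral_congr_fun measurableSet_Ioi e, integral_smul, smul_smul]
  have : v / (2 * a) * (2 * a / v) = 1 := by field_simp
  rw [this, one_smul]

theorem volume_real_ball : (volume : Measure ℂ).real (Metric.ball 0 1) = Real.pi := by
  rw [Measure.real, Complex.volume_ball]
  simp

theorem radial_integrable (ha : 0 < a) (hv : 0 < v) {f : ℝ → E}
    (hf : IntegrableOn f (Ioi (a * v))) :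
    Integrable (fun z : ℂ => f (a * (normSq z + v ^ 2) / v)) := by
  have h := (smul_radial_integrableOn ha hv).2 hf
  have h2 := integrable_fun_norm_addHaar (volume : Measure ℂ)
    (f := fun y : ℝ => f (a * (y ^ 2 + v ^ 2) / v))
  rw [Complex.finrank_real_complex] at h2
  simp only [Complex.sq_norm, show 2 - 1 = 1 from rfl, pow_one] at h2
  exact h2.2 h

theorem radial_integral (ha : 0 < a) (hv : 0 < v) (f : ℝ → E) :
    ∫ z : ℂ, f (a * (normSq z + v ^ 2) / v)
      = (Real.pi * v / a) • ∫ x in Ioi (a * v), f x := by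
  have h := integral_fun_norm_addHaar (volume : Measure ℂ)
    (f := fun y : ℝ => f (a * (y ^ 2 + v ^ 2) / v))
  rw [Complex.finrank_real_complex] at h
  simp only [Complex.sq_norm, show 2 - 1 = 1 from rfl, pow_one] at h
  rw [h, smul_radial_integral ha hv, volume_real_ball, ← Nat.cast_smul_eq_nsmul ℝ, smul_smul,
    smul_smul]
  congr 1
  push_cast
  field_simp

end radial

/-! ### the class of test functions -/

/-- measurable functions with decay `(1+x)^{-4}` -/
structure Cls (f : ℝ → ℂ) (C : ℝ) : Prop where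
  meas : Measurable f
  bound : ∀ x, 0 < x → ‖f x‖ ≤ C / (1 + x) ^ 4

theorem hasDerivAt_prim (C : ℝ) {x : ℝ} (hx : 0 ≤ x) :
    HasDerivAt (fun x : ℝ => -(C / 3) / (1 + x) ^ 3) (C / (1 + x) ^ 4) x := by
  have hx1 : (1 + x) ≠ 0 := by positivity
  have h1 : HasDerivAt (fun x : ℝ => (1 + x) ^ 3) (3 * (1 + x) ^ 2) x := by
    have := ((hasDerivAt_id x).const_add 1).fun_pow 3
    simpa using this
  have h2 := (h1.fun_inv (pow_ne_zero 3 hx1)).const_mul (-(C / 3))
  have e : C / (1 + x) ^ 4 = -(C / 3) * (-(3 * (1 + x) ^ 2) / ((1 + x) ^ 3) ^ 2) := by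
    field_simp
  rw [e]
  simpa only [div_eq_mul_inv] using h2

theorem tendsto_prim (C : ℝ) :
    Filter.Tendsto (fun x : ℝ => -(C / 3) / (1 + x) ^ 3) Filter.atTop (nhds 0) := by
  apply Filter.Tendsto.const_div_atTop
  have h : Filter.Tendsto (fun x : ℝ => 1 + x) Filter.atTop Filter.atTop :=
    Filter.tendsto_atTop_add_const_left _ _ Filter.tendsto_id
  exact (Filter.tendsto_pow_atTop (three_ne_zero)).comp h

theorem integrableOn_maj {C x : ℝ} (hC : 0 ≤ C) (hx : 0 ≤ x) :
    IntegrableOn (fun t : ℝ => C / (1 + t) ^ 4) (Ioi x) :=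
  integrableOn_Ioi_deriv_of_nonneg' (fun t ht => hasDerivAt_prim C (hx.trans ht))
    (fun t ht => by have : 0 < 1 + t := by have : x < t := ht; linarith
                    positivity) (tendsto_prim C)

theorem integral_maj {C x : ℝ} (hC : 0 ≤ C) (hx : 0 ≤ x) :
    ∫ t in Ioi x, C / (1 + t) ^ 4 = C / 3 / (1 + x) ^ 3 := by
  rw [integral_Ioi_of_hasDerivAt_of_nonneg' (fun t ht => hasDerivAt_prim C (hx.trans ht))
    (fun t ht => by have : 0 < 1 + t := by have : x < t := ht; linarith
                    positivity) (tendsto_prim C)]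
  ring

namespace Cls

variable {f : ℝ → ℂ} {C : ℝ}

theorem nonneg (h : Cls f C) : 0 ≤ C := by
  have h1 := (norm_nonneg _).trans (h.bound 1 one_pos)
  by_contra hc
  push Not at hc
  have : C / (1 + 1) ^ 4 < 0 := div_neg_of_neg_of_pos hc (by positivity)
  linarith

theorem integrableOn (h : Cls f C) {x : ℝ} (hx : 0 ≤ x) : IntegrableOn f (Ioi x) := by
  refine (integrableOn_maj h.nonneg hx).mono' h.meas.aestronglyMeasurable ?_
  rw [ae_restrict_iff' measurableSet_Ioi]
  exact Filter.Eventually.of_forall fun t ht => h.bound t (lt_of_le_of_lt hx ht)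

theorem integral_norm_le (h : Cls f C) {x : ℝ} (hx : 0 ≤ x) :
    ∫ t in Ioi x, ‖f t‖ ≤ C / 3 / (1 + x) ^ 3 := by
  rw [← integral_maj h.nonneg hx]
  refine setIntegral_mono_on (h.integrableOn hx).norm (integrableOn_maj h.nonneg hx)
    measurableSet_Ioi fun t ht => h.bound t (lt_of_le_of_lt hx ht)

theorem norm_integral_le (h : Cls f C) {x : ℝ} (hx : 0 ≤ x) :
    ‖∫ t in Ioi x, f t‖ ≤ C / 3 / (1 + x) ^ 3 :=
  (norm_integral_le_integral_norm _).trans (h.integral_norm_le hx)

end Cls

/-! ### the argument -/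

theorem ar_eq {v : ℝ} {c : ℂ} (hc : c ≠ 0) (d z : ℂ) :
    ar v c d z = normSq c * (normSq (z + d / c) + v ^ 2) / v := by
  have : c * z + d = c * (z + d / c) := by field_simp
  rw [ar, this, normSq_mul]
  ring_nf

theorem measurable_ar (v : ℝ) (c d : ℂ) : Measurable (ar v c d) := by
  unfold ar
  have : Continuous fun z : ℂ => (normSq (c * z + d) + normSq c * v ^ 2) / v :=
    ((continuous_normSq.comp (by fun_prop)).add continuous_const).div_const _
  exact this.measurable

theorem integrable_ar {v : ℝ} (hv : 0 < v) {c : ℂ} (hc : c ≠ 0) (d : ℂ) {f : ℝ → E}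
    (hf : IntegrableOn f (Ioi (normSq c * v))) : Integrable (fun z : ℂ => f (ar v c d z)) := by
  have h := radial_integrable (normSq_pos.2 hc) hv hf
  have h2 := h.comp_add_right (d / c)
  exact h2.congr (Filter.Eventually.of_forall fun z => by simp only [ar_eq hc])

theorem integral_ar {v : ℝ} (hv : 0 < v) {c : ℂ} (hc : c ≠ 0) (d : ℂ) (f : ℝ → E) :
    ∫ z : ℂ, f (ar v c d z) = (Real.pi * v / normSq c) • ∫ x in Ioi (normSq c * v), f x := by
  rw [← radial_integral (normSq_pos.2 hc) hv f,
    ← integral_add_right_eq_self (fun z : ℂ => f (normSq c * (normSq z + v ^ 2) / v)) (d / c)]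
  congr 1
  ext z
  rw [ar_eq hc]

end Vale.Agent.P006.KU.CT
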