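import Vale.Agent.P006.CR.Residue
import Mathlib.GroupTheory.QuotientGroup.Finite

/-!
P006, block KU: sums over residue classes of periodic functions on `O`.
-/

namespace Vale.Agent.P006.KU

open Vale.Agent.P006
open scoped BigOperators

/-- `f` is periodic modulo `n` -/
def Per {α : Type*} (n : O) (f : O → α) : Prop := ∀ x y : O, n ∣ x - y → f x = f y

theorem Per.mono {α : Type*} {n k : O} {f : O → α} (h : Per n f) (hnk : n ∣ k) : Per k f :=
  fun x y hxy => h x y (hnk.trans hxy)

/-- the function on `Rs n` induced by a function on `O` (meaningful if it is periodic) -/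
noncomputable def liftR {α : Type*} (n : O) (f : O → α) (x : Rs n) : α :=
  f (Function.surjInv (rs_surj n) x)

theorem liftR_rs {α : Type*} {n : O} {f : O → α} (hf : Per n f) (x : O) :
    liftR n f (rs n x) = f x := by
  apply hf
  rw [← rs_eq]
  exact Function.surjInv_eq (rs_surj n) _

theorem sum_liftR_congr {M : Type*} [AddCommMonoid M] {n : O} [NeZero n] {f g : O → M}
    (h : ∀ x, f x = g x) : ∑ x : Rs n, liftR n f x = ∑ x : Rs n, liftR n g x :=
  Finset.sum_congr rfl fun _ _ => h _

/-- change of variable `x ↦ a x + b` with `a` prime to the modulus -/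
theorem sum_liftR_affine {M : Type*} [AddCommMonoid M] {n : O} [NeZero n] {f : O → M}
    (hf : Per n f) {a : O} (ha : IsCoprime n a) (b : O) :
    ∑ x : Rs n, liftR n (fun d => f (a * d + b)) x = ∑ x : Rs n, liftR n f x := by
  have hper : Per n (fun d => f (a * d + b)) := by
    intro x y hxy
    apply hf
    have : a * x + b - (a * y + b) = a * (x - y) := by ring
    rw [this]; exact hxy.mul_left _
  apply Fintype.sum_bijective (fun x : Rs n => rs n a * x + rs n b)
  · rw [← Finite.injective_iff_bijective]
    intro x y hxy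
    obtain ⟨x, rfl⟩ := rs_surj n x
    obtain ⟨y, rfl⟩ := rs_surj n y
    have h1 : rs n (a * x + b) = rs n (a * y + b) := by simpa using hxy
    rw [rs_eq] at h1 ⊢
    have : a * x + b - (a * y + b) = a * (x - y) := by ring
    rw [this] at h1
    exact ha.dvd_of_dvd_mul_left h1
  · intro x
    obtain ⟨x, rfl⟩ := rs_surj n x
    rw [liftR_rs hper]
    have : rs n a * rs n x + rs n b = rs n (a * x + b) := by simp
    rw [this, liftR_rs hf]

theorem card_fiber_redR {n m : O} (h : n ∣ m) [NeZero n] [NeZero m] (y : Rs n)
    [DecidableEq (Rs n)] :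
    N n * (Finset.univ.filter (fun x : Rs m => redR n m h x = y)).card = N m := by
  classical
  have hsurj : Function.Surjective (redR n m h) := by
    intro z
    obtain ⟨z, rfl⟩ := rs_surj n z
    exact ⟨rs m z, rfl⟩
  have hcard : ∀ z : Rs n, (Finset.univ.filter (fun x : Rs m => redR n m h x = z)).card
      = (Finset.univ.filter (fun x : Rs m => redR n m h x = y)).card := by
    intro z
    obtain ⟨w, hw⟩ := hsurj (z - y)
    refine Finset.card_bij (fun x _ => x - w) ?_ ?_ ?_
    · intro x hx
      simp only [Finset.mem_filter, Finset.mem_univ, true_and] at hx ⊢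
      rw [map_sub, hx, hw]; ring
    · intro a _ b _ hab
      exact sub_left_injective hab
    · intro b hb
      simp only [Finset.mem_filter, Finset.mem_univ, true_and] at hb
      refine ⟨b + w, ?_, by ring⟩
      simp only [Finset.mem_filter, Finset.mem_univ, true_and]
      rw [map_add, hb, hw]; ring
  have h1 : (Finset.univ : Finset (Rs m)).card
      = ∑ z : Rs n, (Finset.univ.filter (fun x : Rs m => redR n m h x = z)).card :=
    Finset.card_eq_sum_card_fiberwise (fun x _ => Finset.mem_univ _)
  rw [Finset.sum_congr rfl (fun z _ => hcard z), Finset.sum_const, Finset.card_univ,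
    Finset.card_univ, fcard_Rs, fcard_Rs, smul_eq_mul] at h1
  exact h1.symm

/-- the sum over a larger modulus -/
theorem sum_liftR_mul {R : Type*} [Semiring R] {n k m : O} [NeZero n] [NeZero m]
    (hm : m = n * k) {f : O → R} (hf : Per n f) :
    ∑ x : Rs m, liftR m f x = (N k : R) * ∑ x : Rs n, liftR n f x := by
  subst hm
  classical
  have hd : n ∣ n * k := dvd_mul_right n k
  have hf' : Per (n * k) f := hf.mono hd
  have h1 : ∀ x : Rs (n * k), liftR (n * k) f x = liftR n f (redR n (n * k) hd x) := by
    intro x
    obtain ⟨x, rfl⟩ := rs_surj _ x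
    rw [liftR_rs hf', redR_rs, liftR_rs hf]
  rw [Finset.sum_congr rfl (fun x _ => h1 x), Finset.mul_sum]
  rw [← Finset.sum_fiberwise (s := Finset.univ) (g := fun x : Rs (n * k) => redR n (n * k) hd x)
    (f := fun x => liftR n f (redR n (n * k) hd x))]
  apply Finset.sum_congr rfl
  intro y _
  have h2 : ∀ x ∈ Finset.univ.filter (fun x : Rs (n * k) => redR n (n * k) hd x = y),
      liftR n f (redR n (n * k) hd x) = liftR n f y := by
    intro x hx
    rw [Finset.mem_filter] at hx
    rw [hx.2]
  rw [Finset.sum_congr rfl h2, Finset.sum_const, nsmul_eq_mul]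
  congr 2
  have h3 := card_fiber_redR hd y
  rw [N_mul] at h3
  exact Nat.eq_of_mul_eq_mul_left (N_pos (NeZero.ne n)) h3

end Vale.Agent.P006.KU
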