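import Vale.Agent.P006.KU.CT1
import Vale.Agent.P006.KU.Lift

/-!
P006, block KU (constant terms): sums over the translates of a cell, unfolding of periodic
coefficients, and the exchange of sum and integral for double series.
-/

namespace Vale.Agent.P006.KU.CT

open MeasureTheory Set Complex
open Vale.Agent.P006 Vale.Agent.P006.GRAM

theorem hasSum_of_eq {ι M : Type*} [AddCommMonoid M] [TopologicalSpace M] {f g : ι → M} {a : M}
    (h : HasSum f a) (e : ∀ x, g x = f x) : HasSum g a := by
  have : g = f := funext e
  rw [this]; exact h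

section cellsum

variable {E : Type*} [NormedAddCommGroup E] [NormedSpace ℝ E]

theorem hasSum_cell {t : ℝ} (ht : 0 < t) {g : ℂ → E} (hg : Integrable g) :
    HasSum (fun ν : O => ∫ z in cell t, g (t * toC ν + z)) (∫ z, g z) := by
  have h := hasSum_integral_iUnion (measurableSet_tile t) (pairwise_disjoint_tile ht)
    (f := g) (μ := volume) hg.integrableOn
  rw [iUnion_tile ht, setIntegral_univ] at h
  refine hasSum_of_eq h ?_
  intro ν
  have : tile t ν = (fun z => (t : ℂ) * toC ν + z) '' cell t := rfl
  rw [this]
  have hmp := measurePreserving_add_left (volume : Measure ℂ) ((t : ℂ) * toC ν)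
  rw [← hmp.setIntegral_image_emb (measurableEmbedding_addLeft _)]

end cellsum

/-- a function that is constant on classes, summed class by class -/
theorem hasSum_classes {M : Type*} [AddCommMonoid M] [TopologicalSpace M] [ContinuousAdd M]
    {q : O} [NeZero q] {F : O → M} {s : Rs q → M}
    (h : ∀ x : O, HasSum (fun t : O => F (x + q * t)) (s (rs q x))) :
    HasSum F (∑ x : Rs q, s x) := by
  classical
  have hq : q ≠ 0 := NeZero.ne q
  have h1 : ∀ x : Rs q, HasSum (fun d : O => if rs q d = x then F d else 0) (s x) := by
    intro x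
    obtain ⟨x, rfl⟩ := rs_surj q x
    have hinj : Function.Injective (fun t : O => x + q * t) := by
      intro t t' ht
      simpa [hq] using ht
    rw [← hinj.hasSum_iff]
    · refine hasSum_of_eq (h x) ?_
      intro t
      simp only [Function.comp]
      rw [if_pos]
      rw [rs_eq]
      exact ⟨t, by ring⟩
    · intro d hd
      rw [if_neg]
      intro hdx
      apply hd
      rw [rs_eq] at hdx
      obtain ⟨t, ht⟩ := hdx
      exact ⟨t, by simp only []; rw [← ht]; ring⟩
  have h2 := hasSum_sum (s := Finset.univ) (fun x _ => h1 x)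
  refine hasSum_of_eq h2 ?_
  intro d
  rw [Finset.sum_ite_eq]
  simp

variable {𝕜 : Type*} [RCLike 𝕜]

/-- **unfolding** of a periodic coefficient -/
theorem hasSum_unfold {q : O} [NeZero q] {b : O → 𝕜} (hb : Per q b) {g : ℂ → 𝕜}
    (hg : Integrable g) :
    HasSum (fun d : O => b d * ∫ z in cell 3, g (z + 3 * toC d / toC q))
      ((∑ x : Rs q, liftR q b x) * ∫ z, g z) := by
  have hq : toC q ≠ 0 := by rw [Ne, toC_eq_zero]; exact NeZero.ne q
  rw [Finset.sum_mul]
  apply hasSum_classes
  intro x
  rw [liftR_rs hb]
  have h1 : ∀ t : O, b (x + q * t) = b x := fun t => hb _ _ ⟨t, by ring⟩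
  simp only [h1]
  apply HasSum.mul_left
  have h2 := hasSum_cell (t := 3) (by norm_num) (hg.comp_add_right (3 * toC x / toC q))
  rw [integral_add_right_eq_self] at h2
  refine hasSum_of_eq h2 ?_
  intro t
  congr 1
  ext z
  congr 1
  rw [map_add, map_mul]
  push_cast
  field_simp
  ring

end Vale.Agent.P006.KU.CT
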