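import Vale.Agent.P006.KU.CT2
import Vale.Agent.P006.H2.Tsum
import Vale.Agent.P006.V2.Summ
import Mathlib.Topology.Algebra.InfiniteSum.Real

/-!
P006, block KU (constant terms): double series `∑_{c, d} b(c, d) f(ar v c (l d) z)` integrated
over a cell of `3 O`.
-/

namespace Vale.Agent.P006.KU.CT

open MeasureTheory Set Complex
open Vale.Agent.P006 Vale.Agent.P006.GRAM

/-- the sum over the residue classes of a periodic function -/
noncomputable def ps {M : Type*} [AddCommMonoid M] (q : O) (b : O → M) : M :=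
  ∑ᶠ x : Rs q, liftR q b x

theorem ps_eq {M : Type*} [AddCommMonoid M] (q : O) [NeZero q] (b : O → M) :
    ps q b = ∑ x : Rs q, liftR q b x := finsum_eq_sum_of_fintype _

theorem ps_norm_le {q : O} (hq : q ≠ 0) {b : O → ℂ} (hb : ∀ d, ‖b d‖ ≤ 1) :
    ps q (fun d => ‖b d‖) ≤ N q := by
  have : NeZero q := ⟨hq⟩
  rw [ps_eq]
  calc ∑ x : Rs q, liftR q (fun d => ‖b d‖) x ≤ ∑ _x : Rs q, (1 : ℝ) :=
        Finset.sum_le_sum fun x _ => hb _
    _ = N q := by
        rw [Finset.sum_const, Finset.card_univ, fcard_Rs, nsmul_eq_mul, mul_one]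

theorem ps_norm_nonneg {q : O} (b : O → ℂ) : 0 ≤ ps q (fun d => ‖b d‖) :=
  finsum_nonneg fun _ => norm_nonneg _

/-- exchange of sum and integral for a double series -/
theorem double_swap {α : Type*} [MeasurableSpace α] {μ : Measure α} {F : O → O → α → ℂ}
    {M : O → ℝ} (hint : ∀ c d, Integrable (F c d) μ)
    (hs : ∀ c, Summable fun d => ∫ z, ‖F c d z‖ ∂μ)
    (hM : ∀ c, ∑' d, ∫ z, ‖F c d z‖ ∂μ ≤ M c) (hMs : Summable M) :
    (∀ᵐ z ∂μ, Summable fun p : O × O => ‖F p.1 p.2 z‖) ∧
    Integrable (fun z => ∑' p : O × O, F p.1 p.2 z) μ ∧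
    HasSum (fun c => ∑' d, ∫ z, F c d z ∂μ) (∫ z, ∑' p : O × O, F p.1 p.2 z ∂μ) := by
  have h1 : Summable fun p : O × O => ∫ z, ‖F p.1 p.2 z‖ ∂μ := by
    rw [summable_prod_of_nonneg (fun p => integral_nonneg fun z => norm_nonneg _)]
    refine ⟨hs, ?_⟩
    exact Summable.of_nonneg_of_le (fun c => tsum_nonneg fun d => integral_nonneg fun z =>
      norm_nonneg _) hM hMs
  have hi : ∀ p : O × O, Integrable (fun z => F p.1 p.2 z) μ := fun p => hint p.1 p.2
  refine ⟨FC.ae_summable hi h1, FC.integrable_tsum_of_norm hi h1, ?_⟩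
  have h2 := hasSum_integral_of_summable_integral_norm hi h1
  refine h2.prod_fiberwise fun c => ?_
  have h3 : Summable fun d => ∫ z, F c d z ∂μ :=
    (hs c).of_norm_bounded fun d => norm_integral_le_integral_norm _
  exact h3.hasSum

theorem ar_scaled {v : ℝ} {k l c : O} (hkl : k * l = 3) (hc : c ≠ 0) (d : O) (z : ℂ) :
    ar v (toC c) (toC (l * d)) z = ar v (toC c) 0 (z + 3 * toC d / toC (k * c)) := by
  have hc' : toC c ≠ 0 := by rwa [Ne, toC_eq_zero]
  have hk : k ≠ 0 := by
    rintro rfl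
    rw [zero_mul] at hkl
    exact absurd hkl (by decide)
  have hk' : toC k ≠ 0 := by rwa [Ne, toC_eq_zero]
  have h3 : (3 : ℂ) = toC k * toC l := by
    rw [← map_mul, hkl, map_ofNat]
  have h4 : toC c * z + toC (l * d) = toC c * (z + 3 * toC d / toC (k * c)) := by
    rw [h3, map_mul, map_mul]
    field_simp
  rw [ar, ar, h4, add_zero]

section rows

variable {v C : ℝ} {f : ℝ → ℂ} {k l : O}

/-- one row, coefficient `b` periodic modulo `k c` -/
theorem hasSum_row (hv : 0 < v) (hf : Cls f C) (hkl : k * l = 3) {c : O} (hc : c ≠ 0)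
    {b : O → ℂ} (hb : Per (k * c) b) :
    HasSum (fun d : O => ∫ z in cell 3, b d * f (ar v (toC c) (toC (l * d)) z))
      (ps (k * c) b * (((Real.pi * v / N c : ℝ) : ℂ) * ∫ x in Ioi ((N c : ℝ) * v), f x)) := by
  have hk : k ≠ 0 := by
    rintro rfl
    rw [zero_mul] at hkl
    exact absurd hkl (by decide)
  have : NeZero (k * c) := ⟨mul_ne_zero hk hc⟩
  have hc' : toC c ≠ 0 := by rwa [Ne, toC_eq_zero]
  have hN : (0 : ℝ) ≤ normSq (toC c) * v := by have := normSq_nonneg (toC c); positivity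
  have h1 := hasSum_unfold hb (integrable_ar hv hc' 0 (hf.integrableOn hN))
  rw [integral_ar hv hc', ← ps_eq, ← N_cast_real, real_smul] at h1
  refine hasSum_of_eq h1 fun d => ?_
  rw [integral_const_mul]
  congr 1
  refine setIntegral_congr_fun (measurableSet_cell 3) fun z _ => ?_
  simp only [ar_scaled hkl hc]

theorem hasSum_row_norm (hv : 0 < v) (hf : Cls f C) (hkl : k * l = 3) {c : O} (hc : c ≠ 0)
    {b : O → ℂ} (hb : Per (k * c) b) :
    HasSum (fun d : O => ∫ z in cell 3, ‖b d * f (ar v (toC c) (toC (l * d)) z)‖)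
      (ps (k * c) (fun d => ‖b d‖) *
        (Real.pi * v / N c * ∫ x in Ioi ((N c : ℝ) * v), ‖f x‖)) := by
  have hk : k ≠ 0 := by
    rintro rfl
    rw [zero_mul] at hkl
    exact absurd hkl (by decide)
  have : NeZero (k * c) := ⟨mul_ne_zero hk hc⟩
  have hc' : toC c ≠ 0 := by rwa [Ne, toC_eq_zero]
  have hN : (0 : ℝ) ≤ normSq (toC c) * v := by have := normSq_nonneg (toC c); positivity
  have hb' : Per (k * c) (fun d => ‖b d‖) := fun x y h => by simp only [hb x y h]
  have h1 := hasSum_unfold (𝕜 := ℝ) hb' (integrable_ar hv hc' 0 (hf.integrableOn hN).norm)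
  rw [integral_ar hv hc' 0 (fun x => ‖f x‖), ← ps_eq, ← N_cast_real, smul_eq_mul] at h1
  refine hasSum_of_eq h1 fun d => ?_
  simp only [norm_mul]
  rw [integral_const_mul]
  congr 1
  refine setIntegral_congr_fun (measurableSet_cell 3) fun z _ => ?_
  simp only [ar_scaled hkl hc]

theorem integrable_term (hv : 0 < v) (hf : Cls f C) {c : O} (hc : c ≠ 0) (a d : ℂ) :
    Integrable (fun z => a * f (ar v (toC c) d z)) (volume.restrict (cell 3)) := by
  have hc' : toC c ≠ 0 := by rwa [Ne, toC_eq_zero]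
  have hN : (0 : ℝ) ≤ normSq (toC c) * v := by have := normSq_nonneg (toC c); positivity
  exact ((integrable_ar hv hc' d (hf.integrableOn hN)).const_mul a).restrict

theorem summable_dec (hv : 0 < v) : Summable fun c : O => 1 / (1 + (N c : ℝ) * v) ^ 3 := by
  have h1 := (V2.summable_N (β := 2) (by norm_num)).mul_left (1 / v ^ 2)
  refine Summable.of_norm_bounded_eventually h1 ?_
  rw [Filter.eventually_cofinite]
  refine (Set.finite_singleton (0 : O)).subset fun c hc => ?_
  by_contra hne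
  apply hc
  have hN : (1 : ℝ) ≤ N c := by
    have := N_pos (show c ≠ 0 from hne)
    exact_mod_cast this
  rw [Real.norm_of_nonneg (by positivity), Real.rpow_neg (by positivity)]
  have e : (N c : ℝ) ^ (2 : ℝ) = (N c : ℝ) ^ 2 := by
    rw [← Real.rpow_natCast]; norm_num
  have e2 : 1 / v ^ 2 * ((N c : ℝ) ^ 2)⁻¹ = 1 / (v * N c) ^ 2 := by
    field_simp
  rw [e, e2]
  apply one_div_le_one_div_of_le (by positivity)
  have hx : 0 ≤ v * (N c : ℝ) := by positivity
  nlinarith [pow_nonneg hx 3, pow_nonneg hx 2]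

/-- **the generic double series** -/
theorem double (hv : 0 < v) (hf : Cls f C) (hkl : k * l = 3) {b : O → O → ℂ}
    (hb0 : ∀ d, b 0 d = 0) (hb : ∀ c, c ≠ 0 → Per (k * c) (b c)) (hb1 : ∀ c d, ‖b c d‖ ≤ 1) :
    (∀ᵐ z ∂(volume.restrict (cell 3)),
      Summable fun p : O × O => ‖b p.1 p.2 * f (ar v (toC p.1) (toC (l * p.2)) z)‖) ∧
    Integrable (fun z => ∑' p : O × O, b p.1 p.2 * f (ar v (toC p.1) (toC (l * p.2)) z))
      (volume.restrict (cell 3)) ∧
    HasSum (fun c : O => ps (k * c) (b c) *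
        (((Real.pi * v / N c : ℝ) : ℂ) * ∫ x in Ioi ((N c : ℝ) * v), f x))
      (∫ z in cell 3, ∑' p : O × O, b p.1 p.2 * f (ar v (toC p.1) (toC (l * p.2)) z)) := by
  have hk : k ≠ 0 := by
    rintro rfl
    rw [zero_mul] at hkl
    exact absurd hkl (by decide)
  have hC := hf.nonneg
  have hpi := Real.pi_pos
  have h := double_swap (μ := volume.restrict (cell 3))
    (F := fun c d z => b c d * f (ar v (toC c) (toC (l * d)) z))
    (M := fun c => (N k * (Real.pi * v) * (C / 3)) * (1 / (1 + (N c : ℝ) * v) ^ 3))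
    ?_ ?_ ?_ ((summable_dec hv).mul_left _)
  · refine ⟨h.1, h.2.1, hasSum_of_eq h.2.2 fun c => ?_⟩
    by_cases hc : c = 0
    · subst hc
      simp [hb0, ps, liftR]
    · exact (hasSum_row hv hf hkl hc (hb c hc)).tsum_eq.symm
  · intro c d
    by_cases hc : c = 0
    · subst hc
      simp [hb0]
    · exact integrable_term hv hf hc _ _
  · intro c
    by_cases hc : c = 0
    · subst hc
      simp [hb0, summable_zero]
    · exact (hasSum_row_norm hv hf hkl hc (hb c hc)).summable
  · intro c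
    by_cases hc : c = 0
    · subst hc
      simp only [hb0, zero_mul, norm_zero, integral_zero, tsum_zero]
      positivity
    · rw [(hasSum_row_norm hv hf hkl hc (hb c hc)).tsum_eq]
      have hNc : (0 : ℝ) < N c := by exact_mod_cast N_pos hc
      have hkc : k * c ≠ 0 := mul_ne_zero hk hc
      have e1 := ps_norm_le hkc (hb1 c)
      have e2 := ps_norm_nonneg (q := k * c) (b c)
      have e3 := hf.integral_norm_le (x := N c * v) (by positivity)
      have e4 : (0 : ℝ) ≤ ∫ x in Ioi ((N c : ℝ) * v), ‖f x‖ := integral_nonneg fun _ => norm_nonneg _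
      rw [N_mul, Nat.cast_mul] at e1
      calc ps (k * c) (fun d => ‖b c d‖) * (Real.pi * v / N c * ∫ x in Ioi ((N c : ℝ) * v), ‖f x‖)
          ≤ (N k * N c) * (Real.pi * v / N c * (C / 3 / (1 + (N c : ℝ) * v) ^ 3)) := by
            gcongr
        _ = (N k * (Real.pi * v) * (C / 3)) * (1 / (1 + (N c : ℝ) * v) ^ 3) := by
            field_simp

end rows

end Vale.Agent.P006.KU.CT
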