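import Vale.Agent.P006.KU.Inst
import Vale.Agent.P006.H845.Order
import Mathlib.RingTheory.Ideal.Quotient.Operations

/-!
P006, block KU: the product formula for Euler's function on `O`, and the final form of the
constant term sums.
-/

namespace Vale.Agent.P006.KU

open Vale.Agent.P006
open scoped BigOperators

theorem phi_mul_of_coprime {a b : O} (h : IsCoprime a b) : phi (a * b) = phi a * phi b := by
  have hI : IsCoprime (Ideal.span ({a} : Set O)) (Ideal.span ({b} : Set O)) :=
    (Ideal.isCoprime_span_singleton_iff a b).2 h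
  have e1 : Rs (a * b) ≃+* Rs a × Rs b :=
    (Ideal.quotEquivOfEq (Ideal.span_singleton_mul_span_singleton a b).symm).trans
      (Ideal.quotientMulEquivQuotientProd _ _ hI)
  have e2 : (Rs (a * b))ˣ ≃ (Rs a)ˣ × (Rs b)ˣ :=
    (Units.mapEquiv e1.toMulEquiv).toEquiv.trans MulEquiv.prodUnits.toEquiv
  rw [phi, Nat.card_congr e2, Nat.card_prod]; rfl

theorem phi_mul_of_dvd {q m : O} (hq : q ≠ 0) (hm : m ≠ 0) (h : q ∣ m) :
    phi (q * m) = N q * phi m := by
  classical
  have : NeZero m := ⟨hm⟩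
  have : NeZero (q * m) := ⟨mul_ne_zero hq hm⟩
  have h1 := sum_liftR_mul (R := ℕ) (n := m) (k := q) (m := q * m) (mul_comm _ _) (per_cop m)
  rw [sum_cop] at h1
  rw [← sum_cop (q * m)]
  have h2 : ∑ x : Rs (q * m), liftR (q * m) (cop (q * m)) x
      = ∑ x : Rs (q * m), liftR (q * m) (cop m) x := by
    apply sum_liftR_congr
    intro d
    have : IsCoprime (q * m) d ↔ IsCoprime m d := by
      constructor
      · intro h'; exact h'.of_mul_left_right
      · intro h'; exact (h'.of_isCoprime_of_dvd_left h).mul_left h'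
    exact if_congr this rfl rfl
  rw [h2, h1]; simp

theorem phi_prime {q : O} (hq : Prime q) : phi q = N q - 1 := by
  have : Fact (Prime q) := ⟨hq⟩
  rw [phi, Nat.card_units, card_Rs]

theorem phi_of_isUnit {u : O} (hu : IsUnit u) : phi u = 1 := by
  have h1 : Subsingleton (Rs u) := by
    rw [Ideal.Quotient.subsingleton_iff]
    exact Ideal.span_singleton_eq_top.2 hu
  rw [phi]
  have : Subsingleton (Rs u)ˣ := inferInstance
  exact Nat.card_of_subsingleton 1

theorem phi_prime_mul {q m : O} (hq : Prime q) (hm : m ≠ 0) :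
    phi (q * m) = (if q ∣ m then N q else N q - 1) * phi m := by
  split_ifs with h
  · exact phi_mul_of_dvd hq.ne_zero hm h
  · rw [phi_mul_of_coprime ((hq.irreducible.coprime_iff_not_dvd).2 h), phi_prime hq]

/-- the product of `1 - 1/N(p)` over the primary primes dividing `m` -/
noncomputable def beta (m : O) : ℝ := ∏ p ∈ pdv m, (1 - 1 / (N p : ℝ))

theorem pdv_congr {a b : O} (ha : a ≠ 0) (hb : b ≠ 0)
    (h : ∀ p : O, Primary p → Prime p → (p ∣ a ↔ p ∣ b)) : pdv a = pdv b := by
  ext p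
  rw [mem_pdv ha, mem_pdv hb]
  constructor
  · rintro ⟨h1, h2, h3⟩; exact ⟨h1, h2, (h p h1 h2).1 h3⟩
  · rintro ⟨h1, h2, h3⟩; exact ⟨h1, h2, (h p h1 h2).2 h3⟩

theorem phi_primary : ∀ c : O, Primary c → (phi c : ℝ) = N c * beta c := by
  classical
  apply Primary.induction
  · rw [phi_of_isUnit isUnit_one, beta, pdv_one]; simp
  · intro π b hπ hp hb ih
    have hb0 := hb.ne_zero
    rw [phi_prime_mul hπ hb0, beta, pdv_mul hp hb, pdv_prime hπ hp, N_mul]
    have hN : 4 ≤ N π := four_le_N hπ hp.not_lam_dvd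
    have hN0 : (N π : ℝ) ≠ 0 := by positivity
    have hsub : ((N π - 1 : ℕ) : ℝ) = (N π : ℝ) - 1 := by
      rw [Nat.cast_sub (by omega)]; simp
    split_ifs with h
    · have : ({π} : Finset O) ∪ pdv b = pdv b := by
        rw [Finset.union_eq_right, Finset.singleton_subset_iff, mem_pdv hb0]
        exact ⟨hp, hπ, h⟩
      rw [this]
      push_cast
      rw [ih, beta]; ring
    · have hd : Disjoint ({π} : Finset O) (pdv b) := by
        rw [Finset.disjoint_singleton_left, mem_pdv hb0]
        exact fun h' => h h'.2.2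
      rw [Finset.prod_union hd, Finset.prod_singleton]
      push_cast
      rw [hsub, ih, beta]
      field_simp

theorem phi_lam_pow (k : ℕ) : (phi (lam ^ (k + 1)) : ℝ) = (2 / 3) * N (lam ^ (k + 1)) := by
  induction k with
  | zero =>
    rw [zero_add, pow_one, phi_prime prime_lam, N_lam]; norm_num
  | succ k ih =>
    rw [pow_succ' lam (k + 1), phi_mul_of_dvd prime_lam.ne_zero (pow_ne_zero _ prime_lam.ne_zero)
      (dvd_pow_self _ (Nat.succ_ne_zero k)), N_mul]
    push_cast
    rw [ih]; ring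

theorem phi_unit_mul {u m : O} (hu : IsUnit u) : phi (u * m) = phi m := by
  rw [phi_mul_of_coprime ?_, phi_of_isUnit hu, one_mul]
  obtain ⟨v, rfl⟩ := hu
  exact ⟨(v⁻¹ : Oˣ), 0, by simp⟩

theorem beta_unit_lam {u m : O} {k : ℕ} (hu : IsUnit u) (hm : m ≠ 0) :
    beta (u * lam ^ k * m) = beta m := by
  have h0 : u * lam ^ k * m ≠ 0 :=
    mul_ne_zero (mul_ne_zero hu.ne_zero (pow_ne_zero _ prime_lam.ne_zero)) hm
  rw [beta, beta, pdv_congr h0 hm]
  intro p hp hpp
  constructor
  · intro h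
    rcases hpp.dvd_or_dvd h with h1 | h1
    · exfalso
      rcases hpp.dvd_or_dvd h1 with h2 | h2
      · exact hpp.not_isUnit (isUnit_of_dvd_unit h2 hu)
      · have h3 := hpp.dvd_of_dvd_pow h2
        have h4 : Associated p lam := hpp.irreducible.associated_of_dvd prime_lam.irreducible h3
        exact hp.not_lam_dvd h4.symm.dvd
    · exact h1
  · intro h; exact h.mul_left _

/-- product formula for Euler's function, `lam ∣ m` -/
theorem phi_eq_of_lam_dvd {m : O} (hm : m ≠ 0) (hl : lam ∣ m) :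
    (phi m : ℝ) = (2 / 3) * N m * beta m := by
  obtain ⟨u, c0, k, hu, hc0, hc⟩ := exists_factor m hm
  have hc0p : Primary c0 := hc0
  have hk : k ≠ 0 := by
    rintro rfl
    rw [hc, pow_zero, mul_one] at hl
    rcases prime_lam.dvd_or_dvd hl with h | h
    · exact prime_lam.not_isUnit (isUnit_of_dvd_unit h hu)
    · exact hc0p.not_lam_dvd h
  obtain ⟨k, rfl⟩ := Nat.exists_eq_succ_of_ne_zero hk
  have hcop : IsCoprime (lam ^ (k + 1)) c0 := hc0p.isCoprime_lam.pow_left
  have h1 : m = u * (lam ^ (k + 1) * c0) := by rw [hc, ← mul_assoc]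
  rw [show beta m = beta c0 by rw [hc]; exact beta_unit_lam hu hc0p.ne_zero]
  rw [h1, phi_unit_mul hu, phi_mul_of_coprime hcop]
  push_cast
  rw [phi_lam_pow, phi_primary c0 hc0p, N_mul, N_mul, isUnit_iff_N.1 hu]
  push_cast
  ring

/-- final form of the constant term sum for a cube -/
theorem cst_cube {c m : O} [NeZero c] (hc : c = m ^ 3) (h3 : (3 : O) ∣ c) :
    cst c = ((N c * beta m : ℝ) : ℂ) := by
  have hm0 : m ≠ 0 := by
    rintro rfl
    exact NeZero.ne c (by rw [hc]; ring)
  have : NeZero m := ⟨hm0⟩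
  have hl : lam ∣ m := lam_dvd_of_three_dvd_cube (hc ▸ h3)
  have h1 := two_mul_cst hc hl
  have h2 := phi_eq_of_lam_dvd hm0 hl
  have h4 : (phi m : ℂ) = (((2 / 3) * N m * beta m : ℝ) : ℂ) := by rw [← h2]; simp
  rw [h4] at h1
  have h5 : cst c = ((3 : ℂ) * (N m : ℂ) ^ 2 * (((2 / 3) * N m * beta m : ℝ) : ℂ)) / 2 := by
    rw [← h1]; ring
  rw [h5, hc, N_pow]
  push_cast
  ring

end Vale.Agent.P006.KU
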