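import Vale.Agent.P006.KU.CT3
import Vale.Agent.P006.KU.Phi

/-!
P006, block KU (constant terms): sums over nonzero cubes of `O`.
-/

namespace Vale.Agent.P006.KU.CT

open MeasureTheory Set Complex
open Vale.Agent.P006 Vale.Agent.P006.GRAM

/-! ### the weight `beta` -/

theorem beta_congr {a b : O} (ha : a ≠ 0) (hb : b ≠ 0)
    (h : ∀ p : O, Primary p → Prime p → (p ∣ a ↔ p ∣ b)) : beta a = beta b := by
  rw [beta, beta, pdv_congr ha hb h]

theorem beta_pow3 {m : O} (hm : m ≠ 0) : beta (m ^ 3) = beta m :=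
  beta_congr (pow_ne_zero 3 hm) hm fun _ _ hp =>
    ⟨fun h => hp.dvd_of_dvd_pow h, fun h => h.trans (dvd_pow_self m three_ne_zero)⟩

theorem beta_neg (m : O) : beta (-m) = beta m := by
  by_cases hm : m = 0
  · subst hm; rw [neg_zero]
  · exact beta_congr (neg_ne_zero.2 hm) hm fun _ _ _ => dvd_neg

theorem one_sub_nonneg {p : O} (hp : Prime p) : 0 ≤ 1 - 1 / (N p : ℝ) := by
  have h1 : (1 : ℝ) ≤ N p := by exact_mod_cast N_pos hp.ne_zero
  rw [sub_nonneg, div_le_one (by linarith)]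
  exact h1

theorem beta_nonneg {m : O} (hm : m ≠ 0) : 0 ≤ beta m :=
  Finset.prod_nonneg fun _ hp => one_sub_nonneg ((mem_pdv hm).1 hp).2.1

theorem beta_le_one {m : O} (hm : m ≠ 0) : beta m ≤ 1 :=
  Finset.prod_le_one (fun _ hp => one_sub_nonneg ((mem_pdv hm).1 hp).2.1) fun _ _ => by
    rw [sub_le_self_iff]; positivity

theorem norm_beta_le {m : O} (hm : m ≠ 0) : ‖((beta m : ℝ) : ℂ)‖ ≤ 1 := by
  rw [norm_real, Real.norm_of_nonneg (beta_nonneg hm)]
  exact beta_le_one hm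

/-! ### sums over nonzero cubes -/

theorem cube_eq_iff {x y : O} : x ^ 3 = y ^ 3 ↔ x = y ∨ x = om * y ∨ x = om ^ 2 * y := by
  have h1 : x ^ 3 - y ^ 3 = (x - y) * (x - om * y) * (x - om ^ 2 * y) := by
    have h2 : 1 + om + om ^ 2 = 0 := by decide
    have h3 : om ^ 3 = 1 := by decide
    linear_combination (x ^ 2 * y - x * y ^ 2 * om) * h2 + y ^ 3 * h3
  rw [← sub_eq_zero, h1, mul_eq_zero, mul_eq_zero, sub_eq_zero, sub_eq_zero, sub_eq_zero, or_assoc]

theorem card_cube_fiber {y : O} (hy : y ≠ 0) : Nat.card {x : O // x ^ 3 = y ^ 3} = 3 := by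
  classical
  have h1 : {x : O | x ^ 3 = y ^ 3} = (({y, om * y, om ^ 2 * y} : Finset O) : Set O) := by
    ext x
    simp only [Set.mem_ofPred_eq, Finset.coe_insert, Finset.coe_singleton, Set.mem_insert_iff,
      Set.mem_singleton_iff]
    exact cube_eq_iff
  have h2 : Nat.card {x : O // x ^ 3 = y ^ 3} =
      Nat.card (({y, om * y, om ^ 2 * y} : Finset O) : Set O) := by
    rw [← h1]; rfl
  rw [h2, Nat.card_eq_card_toFinset, Finset.toFinset_coe, Finset.card_eq_three]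
  refine ⟨y, om * y, om ^ 2 * y, ?_, ?_, ?_, rfl⟩
  · intro h
    have : (1 - om) * y = 0 := by linear_combination h
    rcases mul_eq_zero.1 this with h1 | h1
    · exact absurd h1 (by decide)
    · exact hy h1
  · intro h
    have : (1 - om ^ 2) * y = 0 := by linear_combination h
    rcases mul_eq_zero.1 this with h1 | h1
    · exact absurd h1 (by decide)
    · exact hy h1
  · intro h
    have : (om - om ^ 2) * y = 0 := by linear_combination h
    rcases mul_eq_zero.1 this with h1 | h1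
    · exact absurd h1 (by decide)
    · exact hy h1

open Classical in
/-- sums over nonzero cubes -/
theorem tsum_cubes {F : O → ℂ} (hs : Summable fun ν : O => if ν = 0 then 0 else F (ν ^ 3)) :
    ∑' κ : O, (if κ ≠ 0 ∧ ∃ ν : O, κ = ν ^ 3 then F κ else 0) =
      (1 / 3 : ℂ) * ∑' ν : O, if ν = 0 then 0 else F (ν ^ 3) := by
  set G : O → ℂ := fun ν => if ν = 0 then 0 else F (ν ^ 3) with hG
  have h1 : ∑' ν : O, G ν = ∑' κ : O, ∑' x : {x : O // x ^ 3 = κ}, G x := by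
    have hs2 : Summable (G ∘ (Equiv.sigmaFiberEquiv (fun x : O => x ^ 3))) :=
      (Equiv.summable_iff _).2 hs
    rw [← (Equiv.sigmaFiberEquiv (fun x : O => x ^ 3)).tsum_eq]
    exact hs2.tsum_sigma
  rw [h1, ← tsum_mul_left]
  refine tsum_congr fun κ => ?_
  split_ifs with h
  · obtain ⟨h0, ν, rfl⟩ := h
    have hν : ν ≠ 0 := by rintro rfl; exact h0 (by simp)
    have h2 : ∀ x : {x : O // x ^ 3 = ν ^ 3}, G x = F (ν ^ 3) := by
      rintro ⟨x, hx⟩
      have hx0 : x ≠ 0 := by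
        rintro rfl
        rw [zero_pow three_ne_zero] at hx
        exact h0 hx.symm
      simp only [hG, if_neg hx0, hx]
    rw [tsum_congr h2, tsum_const, card_cube_fiber hν, nsmul_eq_mul]
    push_cast; ring
  · have h2 : ∀ x : {x : O // x ^ 3 = κ}, G x = 0 := by
      rintro ⟨x, hx⟩
      have hx0 : x = 0 := by
        by_contra hx0
        exact h ⟨by rw [← hx]; exact pow_ne_zero 3 hx0, x, hx.symm⟩
      simp [hG, hx0]
    rw [tsum_congr h2, tsum_zero, mul_zero]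

/-! ### the series over `m` -/

open Classical in
/-- the summand of the final series: condition `P m`, weight `beta m`, tail of `f` beyond
`N(m)^3 v` -/
noncomputable def mt (f : ℝ → ℂ) (v : ℝ) (P : O → Prop) (m : O) : ℂ :=
  if m ≠ 0 ∧ P m then (beta m : ℂ) * ∫ x in Ioi ((N m : ℝ) ^ 3 * v), f x else 0

theorem mt_of {f : ℝ → ℂ} {v : ℝ} {P : O → Prop} {m : O} (h : m ≠ 0 ∧ P m) :
    mt f v P m = (beta m : ℂ) * ∫ x in Ioi ((N m : ℝ) ^ 3 * v), f x := if_pos h

theorem mt_of_not {f : ℝ → ℂ} {v : ℝ} {P : O → Prop} {m : O} (h : ¬ (m ≠ 0 ∧ P m)) :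
    mt f v P m = 0 := if_neg h

theorem norm_mt_le {f : ℝ → ℂ} {C v : ℝ} (hv : 0 < v) (hf : Cls f C) (P : O → Prop) (m : O) :
    ‖mt f v P m‖ ≤ C / 3 * (1 / (1 + (N m : ℝ) * v) ^ 3) := by
  have hC := hf.nonneg
  by_cases h : m ≠ 0 ∧ P m
  · rw [mt_of h, norm_mul]
    have hN : (1 : ℝ) ≤ N m := by exact_mod_cast N_pos h.1
    have e1 := norm_beta_le h.1
    have e2 := hf.norm_integral_le (x := (N m : ℝ) ^ 3 * v) (by positivity)
    calc ‖(beta m : ℂ)‖ * ‖∫ x in Ioi ((N m : ℝ) ^ 3 * v), f x‖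
        ≤ 1 * (C / 3 / (1 + (N m : ℝ) ^ 3 * v) ^ 3) := by gcongr
      _ ≤ C / 3 / (1 + (N m : ℝ) * v) ^ 3 := by
          rw [one_mul]
          have h3 : (N m : ℝ) ≤ (N m : ℝ) ^ 3 := le_self_pow₀ hN three_ne_zero
          gcongr
      _ = _ := by ring
  · rw [mt_of_not h, norm_zero]
    positivity

theorem summable_mt {f : ℝ → ℂ} {C v : ℝ} (hv : 0 < v) (hf : Cls f C) (P : O → Prop) :
    Summable (mt f v P) :=
  Summable.of_norm_bounded ((summable_dec hv).mul_left (C / 3)) (norm_mt_le hv hf P)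

theorem mt_congr {f : ℝ → ℂ} {v : ℝ} {P P' : O → Prop} (h : ∀ m, m ≠ 0 → (P m ↔ P' m)) :
    mt f v P = mt f v P' := by
  ext m
  unfold mt
  by_cases hm : m ≠ 0
  · by_cases hP : P m
    · rw [if_pos ⟨hm, hP⟩, if_pos ⟨hm, (h m hm).1 hP⟩]
    · rw [if_neg (fun h' => hP h'.2), if_neg (fun h' => hP ((h m hm).2 h'.2))]
  · rw [if_neg (fun h' => hm h'.1), if_neg (fun h' => hm h'.1)]

theorem mt_neg {f : ℝ → ℂ} {v : ℝ} (P : O → Prop) (m : O) :
    mt f v P (-m) = mt f v (fun m => P (-m)) m := by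
  by_cases h : m ≠ 0 ∧ P (-m)
  · rw [mt_of (P := fun m => P (-m)) h, mt_of ⟨neg_ne_zero.2 h.1, h.2⟩, beta_neg, N_neg]
  · rw [mt_of_not (P := fun m => P (-m)) h, mt_of_not fun h' => h ⟨neg_ne_zero.1 h'.1, h'.2⟩]

open Classical in
/-- the value of the row series when the coefficient sum is `N c * beta c` on the cubes satisfying
`R` and `0` elsewhere -/
theorem tsum_rows {f : ℝ → ℂ} {C v : ℝ} (hv : 0 < v) (hf : Cls f C) {R : O → Prop} {s : O → ℂ}
    (h0 : ∀ c, ¬ (c ≠ 0 ∧ (∃ ν : O, c = ν ^ 3) ∧ R c) → s c = 0)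
    (h1 : ∀ c, c ≠ 0 → (∃ ν : O, c = ν ^ 3) → R c → s c = ((N c * beta c : ℝ) : ℂ)) :
    ∑' c : O, s c * (((Real.pi * v / N c : ℝ) : ℂ) * ∫ x in Ioi ((N c : ℝ) * v), f x)
      = ((Real.pi * v / 3 : ℝ) : ℂ) * ∑' m : O, mt f v (fun m => R (m ^ 3)) m := by
  set F : O → ℂ := fun c => if R c then
    ((Real.pi * v : ℝ) : ℂ) * ((beta c : ℂ) * ∫ x in Ioi ((N c : ℝ) * v), f x) else 0 with hF
  have e1 : ∀ c : O, s c * (((Real.pi * v / N c : ℝ) : ℂ) * ∫ x in Ioi ((N c : ℝ) * v), f x)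
      = if c ≠ 0 ∧ ∃ ν : O, c = ν ^ 3 then F c else 0 := by
    intro c
    by_cases h : c ≠ 0 ∧ ∃ ν : O, c = ν ^ 3
    · have hN : (N c : ℂ) ≠ 0 := by exact_mod_cast (N_pos h.1).ne'
      by_cases hR : R c
      · rw [if_pos h, h1 c h.1 h.2 hR, hF]
        simp only [if_pos hR]
        push_cast
        field_simp
      · rw [if_pos h, h0 c (fun h' => hR h'.2.2), hF]
        simp only [if_neg hR, zero_mul]
    · rw [if_neg h, h0 c (fun h' => h ⟨h'.1, h'.2.1⟩), zero_mul]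
  have e2 : ∀ ν : O, (if ν = 0 then 0 else F (ν ^ 3))
      = ((Real.pi * v : ℝ) : ℂ) * mt f v (fun m => R (m ^ 3)) ν := by
    intro ν
    by_cases hν : ν = 0
    · rw [if_pos hν, mt_of_not (fun h => h.1 hν), mul_zero]
    · rw [if_neg hν, hF]
      by_cases hR : R (ν ^ 3)
      · rw [mt_of ⟨hν, hR⟩]
        simp only [if_pos hR]
        rw [beta_pow3 hν, N_pow, Nat.cast_pow]
      · rw [mt_of_not (P := fun m => R (m ^ 3)) (fun h => hR h.2)]
        simp only [if_neg hR, mul_zero]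
  rw [tsum_congr e1, tsum_cubes (F := F), tsum_congr e2, tsum_mul_left]
  · push_cast; ring
  · exact ((summable_mt hv hf _).mul_left _).congr fun ν => (e2 ν).symm

end Vale.Agent.P006.KU.CT
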