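import Vale.Agent.P006.KU.CT5
import Vale.Agent.P006.KU.Cusp0

/-!
P006, block KU (constant terms): the constant term at the cusp `0`.
-/

namespace Vale.Agent.P006.KU.CT

open MeasureTheory Set Complex
open Vale.Agent.P006 Vale.Agent.P006.GRAM

open Classical in
/-- the coefficients at the cusp `0`: rows `(c, 3 d)` with `c` primary, `q ∣ c` -/
noncomputable def b0 (q c d : O) : ℂ := if Primary c ∧ q ∣ c then toC (sym (3 * d) c) else 0

theorem b0_zero (q d : O) : b0 q 0 d = 0 := if_neg fun h => h.1.ne_zero rfl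

theorem norm_b0_le (q c d : O) : ‖b0 q c d‖ ≤ 1 := by
  unfold b0
  split_ifs
  · exact norm_sym_le _ c
  · rw [norm_zero]; exact zero_le_one

theorem per_chi (c : O) : Per c (fun d => toC (sym d c)) := by
  intro x y h
  simp only []
  rw [← chi_rs, ← chi_rs, rs_eq.2 h]

theorem b0_eq {q c : O} (h : Primary c ∧ q ∣ c) (d : O) :
    b0 q c d = (fun d => toC (sym d c)) (3 * d + 0) := by
  rw [b0, if_pos h, add_zero]

theorem b0_eq_zero {q c : O} (h : ¬ (Primary c ∧ q ∣ c)) (d : O) : b0 q c d = 0 := if_neg h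

theorem per_b0 (q c : O) : Per (1 * c) (b0 q c) := by
  rw [one_mul]
  by_cases h : Primary c ∧ q ∣ c
  · intro x y hxy
    rw [b0_eq h, b0_eq h]
    apply per_chi
    have e : 3 * x + 0 - (3 * y + 0) = 3 * (x - y) := by ring
    rw [e]; exact hxy.mul_left 3
  · intro x y _
    rw [b0_eq_zero h, b0_eq_zero h]

theorem ps_b0 {q c : O} [NeZero c] (h : Primary c ∧ q ∣ c) :
    ps (1 * c) (b0 q c) = ∑ x : Rs c, chi c x := by
  rw [one_mul, ps_eq]
  have e1 : ∑ x : Rs c, liftR c (b0 q c) x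
      = ∑ x : Rs c, liftR c (fun d => (fun d => toC (sym d c)) (3 * d + 0)) x :=
    sum_liftR_congr (b0_eq h)
  rw [e1, sum_liftR_affine (per_chi c) h.1.isCoprime_three.symm 0]
  refine Finset.sum_congr rfl fun x _ => ?_
  obtain ⟨x, rfl⟩ := rs_surj c x
  rw [liftR_rs (per_chi c), chi_rs]

theorem ps_b0_eq_zero (q : O) {c : O}
    (h : ¬ (c ≠ 0 ∧ (∃ ν : O, c = ν ^ 3) ∧ Primary c ∧ q ∣ c)) :
    ps (1 * c) (b0 q c) = 0 := by
  by_cases h1 : Primary c ∧ q ∣ c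
  · have : NeZero c := ⟨h1.1.ne_zero⟩
    rw [ps_b0 h1]
    exact sum_chi_eq_zero h1.1 fun h2 => h ⟨h1.1.ne_zero, h2, h1⟩
  · have e : b0 q c = fun _ => 0 := funext (b0_eq_zero h1)
    rw [e, ps_zero]

theorem ps_b0_cube {q c : O} (h : ∃ ν : O, c = ν ^ 3) (h1 : Primary c ∧ q ∣ c) :
    ps (1 * c) (b0 q c) = ((N c * beta c : ℝ) : ℂ) := by
  have : NeZero c := ⟨h1.1.ne_zero⟩
  obtain ⟨ν, hν⟩ := h
  rw [ps_b0 h1, sum_chi_cube hν, ← phi_primary c h1.1]
  simp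

/-! ### sums over primary elements through all elements prime to `lam` -/

theorem primary_cube_neg {m : O} (hm : ¬ lam ∣ m) :
    (Primary (m ^ 3) ∧ ¬ Primary ((-m) ^ 3)) ∨ (¬ Primary (m ^ 3) ∧ Primary ((-m) ^ 3)) := by
  obtain ⟨u, hu, hp⟩ := exists_unit_mul_primary hm
  have h1 := hp.pow 3
  rw [mul_pow] at h1
  have h2 : ∀ x : O, Primary x → ¬ Primary (-x) := by
    intro x hx hx'
    rw [primary_iff] at hx hx'
    simp only [QuadraticAlgebra.re_neg, QuadraticAlgebra.im_neg] at hx'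
    omega
  have e : (-m) ^ 3 = -(m ^ 3) := by ring
  rw [e]
  rcases isUnit_cases hu with h | h | h | h | h | h
  · have h3 : u ^ 3 = 1 := by rw [h]; decide
    rw [h3, one_mul] at h1
    exact Or.inl ⟨h1, h2 _ h1⟩
  · have h3 : u ^ 3 = 1 := by rw [h]; decide
    rw [h3, one_mul] at h1
    exact Or.inl ⟨h1, h2 _ h1⟩
  · have h3 : u ^ 3 = 1 := by rw [h]; decide
    rw [h3, one_mul] at h1
    exact Or.inl ⟨h1, h2 _ h1⟩
  · have h3 : u ^ 3 = -1 := by rw [h]; decide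
    rw [h3, neg_one_mul] at h1
    exact Or.inr ⟨fun h4 => h2 _ h4 h1, h1⟩
  · have h3 : u ^ 3 = -1 := by rw [h]; decide
    rw [h3, neg_one_mul] at h1
    exact Or.inr ⟨fun h4 => h2 _ h4 h1, h1⟩
  · have h3 : u ^ 3 = -1 := by rw [h]; decide
    rw [h3, neg_one_mul] at h1
    exact Or.inr ⟨fun h4 => h2 _ h4 h1, h1⟩

theorem Primary_cube_not_lam {m : O} (h : Primary (m ^ 3)) : ¬ lam ∣ m := fun h1 =>
  h.not_lam_dvd (h1.trans (dvd_pow_self m three_ne_zero))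

theorem mt_add_neg (f : ℝ → ℂ) (v : ℝ) {P : O → Prop} (hP : ∀ m, P (-m) ↔ P m) (m : O) :
    mt f v (fun m => Primary (m ^ 3) ∧ P m) m + mt f v (fun m => Primary (m ^ 3) ∧ P m) (-m)
      = mt f v (fun m => ¬ lam ∣ m ∧ P m) m := by
  rw [mt_neg]
  by_cases h : m ≠ 0 ∧ ¬ lam ∣ m ∧ P m
  · obtain ⟨h0, h1, h2⟩ := h
    rw [mt_of (P := fun m => ¬ lam ∣ m ∧ P m) ⟨h0, h1, h2⟩]
    rcases primary_cube_neg h1 with ⟨h3, h4⟩ | ⟨h3, h4⟩
    · rw [mt_of (P := fun m => Primary (m ^ 3) ∧ P m) ⟨h0, h3, h2⟩,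
        mt_of_not (P := fun m => Primary ((-m) ^ 3) ∧ P (-m)) (fun h => h4 h.2.1), add_zero]
    · rw [mt_of_not (P := fun m => Primary (m ^ 3) ∧ P m) (fun h => h3 h.2.1),
        mt_of (P := fun m => Primary ((-m) ^ 3) ∧ P (-m)) ⟨h0, h4, (hP m).2 h2⟩, zero_add]
  · rw [mt_of_not (P := fun m => ¬ lam ∣ m ∧ P m) h,
      mt_of_not (P := fun m => Primary (m ^ 3) ∧ P m)
        (fun h' => h ⟨h'.1, Primary_cube_not_lam h'.2.1, h'.2.2⟩),
      mt_of_not (P := fun m => Primary ((-m) ^ 3) ∧ P (-m)), add_zero]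
    rintro ⟨h0, h1, h2⟩
    refine h ⟨h0, fun h3 => Primary_cube_not_lam h1 ((dvd_neg).2 h3), (hP m).1 h2⟩

theorem tsum_neg_half {g h : O → ℂ} (hs : Summable g) (e : ∀ m, g m + g (-m) = h m) :
    ∑' m : O, g m = (1 / 2 : ℂ) * ∑' m : O, h m := by
  have hs' : Summable (fun m => g (-m)) := (Equiv.neg O).summable_iff.2 hs
  have h1 : ∑' m : O, g (-m) = ∑' m : O, g m := (Equiv.neg O).tsum_eq g
  rw [← tsum_congr e, hs.tsum_add hs', h1]
  ring

theorem tsum_primary_cube {f : ℝ → ℂ} {C v : ℝ} (hv : 0 < v) (hf : Cls f C) {P : O → Prop}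
    (hP : ∀ m, P (-m) ↔ P m) :
    ∑' m : O, mt f v (fun m => Primary (m ^ 3) ∧ P m) m
      = (1 / 2 : ℂ) * ∑' m : O, mt f v (fun m => ¬ lam ∣ m ∧ P m) m :=
  tsum_neg_half (summable_mt hv hf _) (mt_add_neg f v hP)

/-! ### the constant term -/

variable {f : ℝ → ℂ} {C v : ℝ}

/-- the series at the cusp `0`: rows `(c, 3 d)`, `c` primary, `q ∣ c`, coefficient `(3 d / c)` -/
noncomputable def E0 (q : O) (f : ℝ → ℂ) (v : ℝ) (z : ℂ) : ℂ :=
  ∑' p : O × O, b0 q p.1 p.2 * f (ar v (toC p.1) (toC (3 * p.2)) z)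

theorem ct_zero (hv : 0 < v) (hf : Cls f C) {q : O} (hq : ∀ m : O, q ∣ m ^ 3 → q ∣ m) :
    Integrable (E0 q f v) (volume.restrict (cell 3)) ∧
    ∫ z in cell 3, E0 q f v z
      = ((Real.pi * v / 6 : ℝ) : ℂ) * ∑' m : O, mt f v (fun m => ¬ lam ∣ m ∧ q ∣ m) m := by
  have h := double hv hf (k := 1) (l := 3) (by norm_num) (b := b0 q) (b0_zero q)
    (fun c _ => per_b0 q c) (norm_b0_le q)
  obtain ⟨h1, h2, h3⟩ := h
  refine ⟨h2, ?_⟩
  unfold E0
  rw [← h3.tsum_eq, tsum_rows hv hf (R := fun c => Primary c ∧ q ∣ c)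
    (fun c hc => ps_b0_eq_zero q hc) (fun c hc hν h1 => ps_b0_cube hν h1)]
  have e : mt f v (fun m => Primary (m ^ 3) ∧ q ∣ m ^ 3)
      = mt f v (fun m => Primary (m ^ 3) ∧ q ∣ m) := by
    apply mt_congr
    intro m _
    exact and_congr_right fun _ => ⟨hq m, fun h => h.trans (dvd_pow_self m three_ne_zero)⟩
  rw [e, tsum_primary_cube hv hf (P := fun m => q ∣ m) (fun m => dvd_neg)]
  push_cast; ring

/-- almost everywhere absolute convergence at the cusp `0` -/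
theorem ae_summable_zero (hv : 0 < v) (hf : Cls f C) (q : O) :
    ∀ᵐ z ∂(volume.restrict (cell 3)),
      Summable fun p : O × O => ‖b0 q p.1 p.2 * f (ar v (toC p.1) (toC (3 * p.2)) z)‖ :=
  (double hv hf (k := 1) (l := 3) (by norm_num) (b := b0 q) (b0_zero q)
    (fun c _ => per_b0 q c) (norm_b0_le q)).1

/-! ### identification with `E 1 η f (S w)` -/

theorem Q_S {v : ℝ} (hv : 0 < v) (z : ℂ) (c d : O) :
    H9.Q (KU.Smat O • H9.H3.of z v) (toC c) (toC d) = ar v (toC d) (toC (-c)) z := by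
  rw [H9.Q_smul, Q_of hv]
  congr 2
  · simp [KU.Smat]
  · simp [KU.Smat]

/-- rows `(c, d)` of `Γ(3)` with `q ∣ d` at the point `S (z, v)` -/
theorem E0_eq {q : O} {f : ℝ → ℂ} {v : ℝ} (hv : 0 < v) (z : ℂ) :
    E0 q f v z = ∑' p : O × O, ({p | p ∈ H9.PP 1 ∧ q ∣ p.2} : Set (O × O)).indicator
      (fun p => eta p.1 p.2 * f (H9.Q (KU.Smat O • H9.H3.of z v) (toC p.1) (toC p.2))) p := by
  classical
  set g : O × O → ℂ := ({p | p ∈ H9.PP 1 ∧ q ∣ p.2} : Set (O × O)).indicator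
      (fun p => eta p.1 p.2 * f (H9.Q (KU.Smat O • H9.H3.of z v) (toC p.1) (toC p.2))) with hg
  set φ : O × O → O × O := fun p => (-(3 * p.2), p.1) with hφ
  have hinj : Function.Injective φ := by
    rintro ⟨a, b⟩ ⟨a', b'⟩ h
    simp only [hφ, Prod.mk.injEq, neg_inj] at h
    obtain ⟨h1, rfl⟩ := h
    rw [mul_left_cancel₀ three_ne_zero' h1]
  have hsupp : Function.support g ⊆ range φ := by
    rintro ⟨c, d⟩ hp
    have : (c, d) ∈ ({p | p ∈ H9.PP 1 ∧ q ∣ p.2} : Set (O × O)) := by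
      by_contra hcon
      exact hp (indicator_of_notMem hcon _)
    obtain ⟨⟨_, ⟨t, ht⟩, _⟩, _⟩ := this
    refine ⟨(d, -t), ?_⟩
    simp only [hφ]
    have ht' : c = 3 * t := ht
    rw [ht']
    ring_nf
  rw [← hinj.tsum_eq hsupp, E0]
  refine tsum_congr fun p => ?_
  obtain ⟨a, b⟩ := p
  simp only [hφ, hg]
  by_cases h : Primary a ∧ q ∣ a
  · by_cases hc : IsCoprime (3 * b) a
    · rw [indicator_of_mem]
      · rw [b0, if_pos h, Q_S hv, neg_neg, eta, sym_neg_left]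
      · exact ⟨⟨hc.neg_left, (dvd_neg).2 (Dvd.intro _ rfl), one_dvd _, h.1⟩, h.2⟩
    · rw [indicator_of_notMem]
      · rw [b0, if_pos h, sym_eq_zero.2 hc, map_zero, zero_mul]
      · rintro ⟨⟨h1, _⟩, _⟩
        apply hc
        have := IsCoprime.neg_left h1
        simpa using this
  · rw [indicator_of_notMem, b0_eq_zero h, zero_mul]
    rintro ⟨⟨_, _, _, h4⟩, h5⟩
    exact h ⟨h4, h5⟩

theorem E0_one_eq {f : ℝ → ℂ} {v : ℝ} (hv : 0 < v) (z : ℂ) :
    E0 1 f v z = H9.E 1 eta f (KU.Smat O • H9.H3.of z v) := by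
  rw [E0_eq hv, H9.E, tsum_subtype (H9.PP 1) (fun p : O × O =>
    eta p.1 p.2 * f (H9.Q (KU.Smat O • H9.H3.of z v) (toC p.1) (toC p.2)))]
  refine tsum_congr fun p => ?_
  congr 1
  ext p
  exact ⟨fun h => h.1, fun h => ⟨h, one_dvd _⟩⟩

end Vale.Agent.P006.KU.CT
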