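import Vale.Agent.P006.KU.Lift
import Vale.Agent.P006.KU.Gamma

/-!
P006, block KU: counting residue classes; the constant term sums of the Kubota character.
-/

namespace Vale.Agent.P006.KU

open Vale.Agent.P006
open scoped BigOperators

/-- Euler's function on `O` -/
noncomputable def phi (m : O) : ℕ := Nat.card (Rs m)ˣ

theorem isUnit_rs {m x : O} : IsUnit (rs m x) ↔ IsCoprime m x := by
  constructor
  · intro h
    obtain ⟨y, hy⟩ := h.exists_right_inv
    obtain ⟨y, rfl⟩ := rs_surj m y
    have h1 : rs m (x * y) = rs m 1 := by simpa using hy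
    rw [rs_eq] at h1
    obtain ⟨t, ht⟩ := h1
    exact ⟨-t, y, by linear_combination ht⟩
  · rintro ⟨a, b, hab⟩
    refine IsUnit.of_mul_eq_one (rs m b) ?_
    rw [← map_mul, ← map_one (rs m), rs_eq]
    exact ⟨-a, by linear_combination hab⟩

theorem isCoprime_congr {m x y : O} (h : m ∣ x - y) : IsCoprime m x ↔ IsCoprime m y := by
  rw [← isUnit_rs, ← isUnit_rs, rs_eq.2 h]

open Classical in
/-- indicator function of coprimality -/
noncomputable def cop (m : O) (d : O) : ℕ := if IsCoprime m d then 1 else 0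

theorem per_cop (m : O) : Per m (cop m) := by
  classical
  intro x y h
  exact if_congr (isCoprime_congr h) rfl rfl

theorem sum_cop (m : O) [NeZero m] : ∑ x : Rs m, liftR m (cop m) x = phi m := by
  classical
  have h1 : ∀ x : Rs m, liftR m (cop m) x = if IsUnit x then 1 else 0 := by
    intro x
    obtain ⟨x, rfl⟩ := rs_surj m x
    rw [liftR_rs (per_cop m)]
    simp only [cop, isUnit_rs]
  have e : (Rs m)ˣ ≃ {x : Rs m // IsUnit x} :=
    Equiv.ofBijective (fun u => ⟨u, u.isUnit⟩)
      ⟨fun u v h => Units.ext (congrArg Subtype.val h), fun ⟨x, hx⟩ => ⟨hx.unit, rfl⟩⟩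
  rw [Finset.sum_congr rfl (fun x _ => h1 x), Finset.sum_boole, phi]
  rw [Nat.card_congr e, Nat.card_eq_fintype_card, Fintype.card_subtype]
  simp

open Classical in
/-- indicator function of primary elements prime to `m` -/
noncomputable def pcop (m : O) (d : O) : ℕ := if Primary d ∧ IsCoprime m d then 1 else 0

theorem primary_congr {x y : O} (h : (3 : O) ∣ x - y) : Primary x ↔ Primary y := by
  have key : ∀ x y : O, (3 : O) ∣ x - y → Primary x → Primary y := by
    intro x y h hx
    have : y - 1 = (x - 1) - (x - y) := by ring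
    rw [Primary, this]; exact dvd_sub hx h
  exact ⟨key x y h, key y x (by rw [← neg_sub, dvd_neg] at h; exact h)⟩

theorem per_pcop (m : O) : Per (3 * m) (pcop m) := by
  classical
  intro x y h
  have h3 : (3 : O) ∣ x - y := (Dvd.intro _ rfl).trans h
  have hm : m ∣ x - y := (Dvd.intro_left _ rfl).trans h
  exact if_congr (and_congr (primary_congr h3) (isCoprime_congr hm)) rfl rfl

instance (m : O) [NeZero m] : NeZero (3 * m) :=
  ⟨mul_ne_zero (by
    intro h
    have := congrArg QuadraticAlgebra.re h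
    rw [re_three] at this
    exact absurd this (by decide)) (NeZero.ne m)⟩

theorem three_ne_zero' : (3 : O) ≠ 0 := by
  intro h
  have := congrArg QuadraticAlgebra.re h
  rw [re_three] at this
  exact absurd this (by decide)

instance : NeZero (3 : O) := ⟨three_ne_zero'⟩

/-- exactly one of the six associates of an element prime to `lam` is primary -/
theorem sum_units_primary {z : O} (hz : ¬ lam ∣ z) :
    (if Primary z then 1 else 0) + (if Primary (om * z) then 1 else 0)
    + (if Primary (om ^ 2 * z) then 1 else 0) + (if Primary (-z) then 1 else 0)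
    + (if Primary (-(om * z)) then 1 else 0) + (if Primary (-(om ^ 2 * z)) then (1 : ℕ) else 0)
    = 1 := by
  rw [lam_dvd_iff] at hz
  simp only [primary_iff]
  have e1 : (om * z).re = - z.im := by simp [om]
  have e2 : (om * z).im = z.re - z.im := by simp [om]; ring
  have hom : om ^ 2 = ⟨-1, -1⟩ := by decide
  have e3 : (om ^ 2 * z).re = - z.re + z.im := by rw [hom]; simp
  have e4 : (om ^ 2 * z).im = - z.re := by rw [hom]; simp
  simp only [QuadraticAlgebra.re_neg, QuadraticAlgebra.im_neg, e1, e2, e3, e4]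
  have : z.re % 3 = 0 ∨ z.re % 3 = 1 ∨ z.re % 3 = 2 := by omega
  have : z.im % 3 = 0 ∨ z.im % 3 = 1 ∨ z.im % 3 = 2 := by omega
  split_ifs <;> omega

theorem isCoprime_unit_mul {m u z : O} (hu : IsUnit u) :
    IsCoprime m (u * z) ↔ IsCoprime m z := isCoprime_mul_unit_left_right hu m z

theorem norm_three : N (3 : O) = 9 := by
  have := N_natCast 3
  simpa using this

/-- `6 * #{d mod 3m primary, prime to m} = 9 phi(m)` if `lam ∣ m` -/
theorem six_sum_pcop {m : O} [NeZero m] (hm : lam ∣ m) :
    6 * ∑ x : Rs (3 * m), liftR (3 * m) (pcop m) x = 9 * phi m := by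
  classical
  have h1 : ∑ x : Rs (3 * m), liftR (3 * m) (cop m) x = 9 * phi m := by
    have h := sum_liftR_mul (R := ℕ) (n := m) (k := 3) (m := 3 * m) (mul_comm _ _) (per_cop m)
    rw [norm_three, sum_cop] at h
    simpa using h
  have hcopm : ∀ d : O, IsCoprime m d → ¬ lam ∣ d := by
    intro d hd hl
    exact prime_lam.not_isUnit (hd.isUnit_of_dvd' hm hl)
  have hsix : ∀ d : O, cop m d = pcop m d + pcop m (om * d) + pcop m (om ^ 2 * d) + pcop m (-d)
      + pcop m (-(om * d)) + pcop m (-(om ^ 2 * d)) := by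
    intro d
    have u1 : IsUnit om := isUnit_om
    have u2 : IsUnit (om ^ 2) := isUnit_om.pow 2
    have c1 : IsCoprime m (om * d) ↔ IsCoprime m d := isCoprime_unit_mul u1
    have c2 : IsCoprime m (om ^ 2 * d) ↔ IsCoprime m d := isCoprime_unit_mul u2
    have c3 : IsCoprime m (-d) ↔ IsCoprime m d := by
      constructor
      · intro h; simpa using h.neg_right
      · exact IsCoprime.neg_right
    have c4 : IsCoprime m (-(om * d)) ↔ IsCoprime m d := by
      rw [← c1]
      constructor
      · intro h; simpa using h.neg_right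
      · exact IsCoprime.neg_right
    have c5 : IsCoprime m (-(om ^ 2 * d)) ↔ IsCoprime m d := by
      rw [← c2]
      constructor
      · intro h; simpa using h.neg_right
      · exact IsCoprime.neg_right
    simp only [cop, pcop, c1, c2, c3, c4, c5]
    by_cases h : IsCoprime m d
    · simp only [h, and_true, if_true]
      exact (sum_units_primary (hcopm d h)).symm
    · simp [h]
  have hp : Per (3 * m) (pcop m) := per_pcop m
  have hlin : ∀ u : O, IsUnit u → ∑ x : Rs (3 * m), liftR (3 * m) (fun d => pcop m (u * d)) x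
      = ∑ x : Rs (3 * m), liftR (3 * m) (pcop m) x := by
    intro u hu
    have h := sum_liftR_affine (f := pcop m) hp (a := u) (isCoprime_comm.1 (by
      obtain ⟨v, rfl⟩ := hu
      exact ⟨(v⁻¹ : Oˣ), 0, by simp⟩)) 0
    simpa using h
  rw [← h1, sum_liftR_congr hsix]
  have hneg : ∀ x : O, -x = (-1) * x := fun x => by ring
  have e2 : ∑ x : Rs (3 * m), liftR (3 * m) (fun d => pcop m (-d)) x
      = ∑ x : Rs (3 * m), liftR (3 * m) (pcop m) x := by
    have := hlin (-1) (isUnit_one.neg)
    simpa using this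
  have e3 : ∑ x : Rs (3 * m), liftR (3 * m) (fun d => pcop m (-(om * d))) x
      = ∑ x : Rs (3 * m), liftR (3 * m) (pcop m) x := by
    have := hlin (-om) (isUnit_om.neg)
    simpa using this
  have e4 : ∑ x : Rs (3 * m), liftR (3 * m) (fun d => pcop m (-(om ^ 2 * d))) x
      = ∑ x : Rs (3 * m), liftR (3 * m) (pcop m) x := by
    have := hlin (-om ^ 2) ((isUnit_om.pow 2).neg)
    simpa [neg_mul] using this
  have hadd : ∑ x : Rs (3 * m), liftR (3 * m) (fun d => pcop m d + pcop m (om * d)
      + pcop m (om ^ 2 * d) + pcop m (-d) + pcop m (-(om * d)) + pcop m (-(om ^ 2 * d))) x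
      = ∑ x : Rs (3 * m), liftR (3 * m) (pcop m) x
      + ∑ x : Rs (3 * m), liftR (3 * m) (fun d => pcop m (om * d)) x
      + ∑ x : Rs (3 * m), liftR (3 * m) (fun d => pcop m (om ^ 2 * d)) x
      + ∑ x : Rs (3 * m), liftR (3 * m) (fun d => pcop m (-d)) x
      + ∑ x : Rs (3 * m), liftR (3 * m) (fun d => pcop m (-(om * d))) x
      + ∑ x : Rs (3 * m), liftR (3 * m) (fun d => pcop m (-(om ^ 2 * d))) x := by
    simp only [liftR, Finset.sum_add_distrib]
  rw [hadd, hlin om isUnit_om, hlin (om ^ 2) (isUnit_om.pow 2), e2, e3, e4]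
  ring

theorem pcop_pow (m d : O) {k : ℕ} (hk : 0 < k) : pcop (m ^ k) d = pcop m d := by
  classical
  exact if_congr (and_congr Iff.rfl (IsCoprime.pow_left_iff hk)) rfl rfl

/-- `#{d mod 3c : d primary, prime to c} = (3/2) N(m)^2 phi(m)` for `c = m^3`, `lam ∣ m` -/
theorem two_sum_pcop_cube {m c : O} [NeZero m] [NeZero c] (hc : c = m ^ 3) (hm : lam ∣ m) :
    2 * ∑ x : Rs (3 * c), liftR (3 * c) (pcop c) x = 3 * N m ^ 2 * phi m := by
  have h1 := six_sum_pcop hm
  have h2 := sum_liftR_mul (R := ℕ) (n := 3 * m) (k := m ^ 2) (m := 3 * c)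
    (by rw [hc]; ring) (per_pcop m)
  have h3 : ∑ x : Rs (3 * c), liftR (3 * c) (pcop c) x
      = ∑ x : Rs (3 * c), liftR (3 * c) (pcop m) x := by
    apply sum_liftR_congr
    intro d
    rw [hc]; exact pcop_pow m d (by norm_num)
  rw [h3, h2, N_pow]
  simp only [Nat.cast_id]
  nlinarith

section Symbol

variable (D : SymData O ℂ)

open Classical in
/-- the summand of the constant term: `(c/d)` for `d` primary and prime to `c`, else `0` -/
noncomputable def ks (c d : O) : ℂ := if Primary d ∧ IsCoprime c d then D.sym c d else 0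

theorem nine_dvd {c : O} (hc : (3 : O) ∣ c) {x : O} (h : 3 * c ∣ x) : (9 : O) ∣ x := by
  have : (9 : O) = 3 * 3 := by norm_num
  rw [this]; exact (mul_dvd_mul (dvd_refl _) hc).trans h

theorem per_ks {c : O} (hc0 : c ≠ 0) (hc : (3 : O) ∣ c) : Per (3 * c) (ks D c) := by
  classical
  intro x y h
  have h3 : (3 : O) ∣ x - y := (Dvd.intro _ rfl).trans h
  have hm : c ∣ x - y := (Dvd.intro_left _ rfl).trans h
  have h9 : (9 : O) ∣ x - y := nine_dvd hc h
  have hiff : (Primary x ∧ IsCoprime c x) ↔ (Primary y ∧ IsCoprime c y) :=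
    and_congr (primary_congr h3) (isCoprime_congr hm)
  by_cases hx : Primary x ∧ IsCoprime c x
  · rw [ks, ks, if_pos hx, if_pos (hiff.1 hx)]
    exact D.congr_right hc0 hx.1 h9 hm
  · rw [ks, ks, if_neg hx, if_neg (fun h => hx (hiff.2 h))]

/-- the constant term sum vanishes if the character `d ↦ (c/d)` is not trivial -/
theorem sum_ks_eq_zero {c : O} [NeZero c] (hc : (3 : O) ∣ c) {d0 : O} (hp : Primary d0)
    (hcop : IsCoprime c d0) (hne : D.sym c d0 ≠ 1) :
    ∑ x : Rs (3 * c), liftR (3 * c) (ks D c) x = 0 := by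
  classical
  have hc0 : c ≠ 0 := NeZero.ne c
  have hmul : ∀ d : O, ks D c (d0 * d + 0) = D.sym c d0 * ks D c d := by
    intro d
    rw [add_zero]
    have h1 : Primary (d0 * d) ↔ Primary d := ⟨fun h => Primary.of_mul hp h, fun h => hp.mul h⟩
    have h2 : IsCoprime c (d0 * d) ↔ IsCoprime c d :=
      ⟨fun h => h.of_mul_right_right, fun h => hcop.mul_right h⟩
    by_cases h : Primary d ∧ IsCoprime c d
    · rw [ks, ks, if_pos h, if_pos ⟨h1.2 h.1, h2.2 h.2⟩, D.mul_right _ _ _ hp h.1]
    · rw [ks, ks, if_neg h, if_neg (fun h' => h ⟨h1.1 h'.1, h2.1 h'.2⟩), mul_zero]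
  have hcop3 : IsCoprime (3 * c) d0 := (hp.isCoprime_three).mul_left hcop
  have h := sum_liftR_affine (per_ks D hc0 hc) hcop3 0
  rw [sum_liftR_congr hmul] at h
  have h2 : ∑ x : Rs (3 * c), liftR (3 * c) (fun d => D.sym c d0 * ks D c d) x
      = D.sym c d0 * ∑ x : Rs (3 * c), liftR (3 * c) (ks D c) x := by
    simp only [liftR, Finset.mul_sum]
  rw [h2] at h
  have h3 : (D.sym c d0 - 1) * ∑ x : Rs (3 * c), liftR (3 * c) (ks D c) x = 0 := by
    rw [sub_mul, h]; ring
  rcases mul_eq_zero.1 h3 with h4 | h4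
  · exact absurd (sub_eq_zero.1 h4) hne
  · exact h4

/-- for a cube `c = m^3` the constant term sum is the number of classes -/
theorem sum_ks_cube {m c : O} [NeZero m] [NeZero c] (hc : c = m ^ 3) (hm : lam ∣ m) :
    2 * ∑ x : Rs (3 * c), liftR (3 * c) (ks D c) x = 3 * (N m : ℂ) ^ 2 * phi m := by
  classical
  have h1 : ∀ d : O, ks D c d = ((pcop c d : ℕ) : ℂ) := by
    intro d
    by_cases h : Primary d ∧ IsCoprime c d
    · have h2 : IsCoprime m d := by
        rw [hc] at h; exact (IsCoprime.pow_left_iff (by norm_num)).1 h.2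
      rw [ks, pcop, if_pos h, if_pos h, hc, D.pow_left h.1, D.cube m d h.1 h2]
      simp
    · rw [ks, pcop, if_neg h, if_neg h]; simp
  rw [sum_liftR_congr h1]
  have h3 : ∑ x : Rs (3 * c), liftR (3 * c) (fun d => ((pcop c d : ℕ) : ℂ)) x
      = ((∑ x : Rs (3 * c), liftR (3 * c) (pcop c) x : ℕ) : ℂ) := by
    simp only [liftR]; push_cast; rfl
  rw [h3]
  have h4 := two_sum_pcop_cube hc hm
  exact_mod_cast h4

end Symbol

end Vale.Agent.P006.KU
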