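import Vale.Agent.P006.KU.Count
import Vale.Agent.P006.CR.Symbol
import Mathlib.RingTheory.IntegralDomain

/-!
P006, block KU: the character `d ↦ (c/d)_3` on primary `d` is trivial only if `c` is a cube.
-/

namespace Vale.Agent.P006.KU

open Vale.Agent.P006
open scoped BigOperators

theorem crt2 {x y : O} (h : IsCoprime x y) (a b : O) : ∃ d : O, x ∣ d - a ∧ y ∣ d - b := by
  obtain ⟨u, v, huv⟩ := h
  refine ⟨b * u * x + a * v * y, ⟨(b - a) * u, ?_⟩, ⟨(a - b) * v, ?_⟩⟩
  · linear_combination a * huv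
  · linear_combination b * huv

/-- additional properties of the cubic symbol: non triviality at primes, and the supplementary
laws in qualitative form -/
structure Nontriv (D : SymData O O) : Prop where
  prime : ∀ p : O, Prime p → Primary p → ∃ a : O, IsCoprime a p ∧ D.sym a p ≠ 1
  supp : ∀ (u : O) (k : ℕ), IsUnit u → (∀ d : O, Primary d → D.sym (u * D.lam ^ k) d = 1) →
    ∃ v : O, u * D.lam ^ k = v ^ 3

theorem dvd_of_pow_eq_one {x : O} {e : ℕ} (h3 : x ^ 3 = 1) (he : x ^ e = 1) (hx : x ≠ 1) :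
    3 ∣ e := by
  have : orderOf x = 3 := orderOf_eq_prime h3 hx
  rw [← this]; exact orderOf_dvd_of_pow_eq_one he

theorem Primary.of_dvd_sub {x y : O} (h : (3 : O) ∣ x - y) (hy : Primary y) : Primary x :=
  (primary_congr h).2 hy

theorem isCoprime_of_dvd_sub_one {x y : O} (h : x ∣ y - 1) : IsCoprime x y := by
  rw [isCoprime_congr h]; exact isCoprime_one_right

variable {D : SymData O O} (hD : Nontriv D)

include hD in
theorem cube_of_sym_right_eq_one : ∀ c : O, Primary c →
    (∀ a : O, IsCoprime a c → D.sym a c = 1) → ∃ m : O, c = m ^ 3 := by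
  intro c
  induction hn : N c using Nat.strong_induction_on generalizing c with
  | _ n ih => ?_
  intro hc h
  by_cases hu : IsUnit c
  · exact ⟨1, by rw [hc.eq_one hu]; ring⟩
  obtain ⟨π₀, hπ₀, hd⟩ := WfDvdMonoid.exists_irreducible_factor hu hc.ne_zero
  have hl : ¬ lam ∣ π₀ := fun h => hc.not_lam_dvd (h.trans hd)
  obtain ⟨u, hu', hp⟩ := exists_unit_mul_primary hl
  have has : Associated π₀ (u * π₀) := associated_unit_mul_right π₀ u hu'
  have hpr : Prime (u * π₀) := has.prime hπ₀.prime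
  have hpd : (u * π₀) ∣ c := has.symm.dvd.trans hd
  set p := u * π₀ with hpdef
  obtain ⟨e, c1, hc1, hcc⟩ := WfDvdMonoid.max_power_factor hc.ne_zero hpr.irreducible
  have hpe : Primary (p ^ e) := hp.pow e
  have hc1p : Primary c1 := Primary.of_mul hpe (hcc ▸ hc)
  have he : e ≠ 0 := by
    rintro rfl
    rw [pow_zero, one_mul] at hcc
    exact hc1 (hcc ▸ hpd)
  have hcop : IsCoprime p c1 := (hpr.irreducible.coprime_iff_not_dvd).2 hc1
  -- `3 ∣ e`
  have h3e : 3 ∣ e := by
    obtain ⟨a0, ha0, hne⟩ := hD.prime p hpr hp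
    obtain ⟨a, ha1, ha2⟩ := crt2 hcop a0 1
    have hap : IsCoprime a p := by
      rw [isCoprime_comm, isCoprime_congr ha1, isCoprime_comm]; exact ha0
    have hac1 : IsCoprime a c1 := (isCoprime_of_dvd_sub_one ha2).symm
    have h1 : D.sym a c = 1 := h a (by rw [hcc]; exact (hap.pow_right).mul_right hac1)
    have hpow : ∀ k : ℕ, D.sym a (p ^ k) = D.sym a p ^ k := by
      intro k
      induction k with
      | zero => simp [D.sym_one]
      | succ k ihk => rw [pow_succ, D.mul_right _ _ _ (hp.pow k) hp, ihk, pow_succ]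
    have h2 : D.sym a c1 = 1 := by
      rw [D.congr a 1 c1 hc1p ha2]; exact D.one_left hc1p
    rw [hcc, D.mul_right _ _ _ hpe hc1p, h2, mul_one, hpow, D.congr a a0 p hp ha1] at h1
    exact dvd_of_pow_eq_one (D.cube a0 p hp ha0) h1 hne
  -- the hypothesis for `c1`
  have hc1h : ∀ a : O, IsCoprime a c1 → D.sym a c1 = 1 := by
    intro a0 ha0
    obtain ⟨a, ha1, ha2⟩ := crt2 hcop 1 a0
    have hap : IsCoprime a p := (isCoprime_of_dvd_sub_one ha1).symm
    have hac1 : IsCoprime a c1 := by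
      rw [isCoprime_comm, isCoprime_congr ha2, isCoprime_comm]; exact ha0
    have h1 : D.sym a c = 1 := h a (by rw [hcc]; exact (hap.pow_right).mul_right hac1)
    have hpow : ∀ k : ℕ, D.sym a (p ^ k) = 1 := by
      intro k
      induction k with
      | zero => simp [D.sym_one]
      | succ k ihk =>
        rw [pow_succ, D.mul_right _ _ _ (hp.pow k) hp, ihk, D.congr a 1 p hp ha1,
          D.one_left hp, mul_one]
    rw [hcc, D.mul_right _ _ _ hpe hc1p, hpow, one_mul, D.congr a a0 c1 hc1p ha2] at h1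
    exact h1
  have hlt : N c1 < n := by
    rw [← hn, hcc, N_mul, N_pow]
    have h1 : 4 ≤ N p := four_le_N hpr hp.not_lam_dvd
    have h2 : 0 < N c1 := N_pos hc1p.ne_zero
    have h3 : N p ≤ N p ^ e := Nat.le_self_pow he _
    nlinarith
  obtain ⟨m1, hm1⟩ := ih (N c1) hlt c1 rfl hc1p hc1h
  obtain ⟨f, hf⟩ := h3e
  exact ⟨p ^ f * m1, by rw [hcc, hm1, hf]; ring⟩

include hD in
/-- if `(c/d) = 1` for all primary `d` prime to `c` then `c` is a cube -/
theorem cube_of_trivial {c : O} (hc0 : c ≠ 0)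
    (h : ∀ d : O, Primary d → IsCoprime c d → D.sym c d = 1) (hlam : D.lam = lam) :
    ∃ m : O, c = m ^ 3 := by
  obtain ⟨u, c0, k, hu, hc0p, hc⟩ := D.factor c hc0
  have hc0p' : Primary c0 := hc0p
  have h9 : IsCoprime (9 : O) c0 := by
    have : (9 : O) = 3 * 3 := by norm_num
    rw [this]; exact hc0p'.isCoprime_three.mul_left hc0p'.isCoprime_three
  have h39 : (3 : O) ∣ 9 := ⟨3, by norm_num⟩
  have hcopc : ∀ d : O, Primary d → IsCoprime c0 d → IsCoprime c d := by
    intro d hd hcd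
    rw [hc, hlam]
    refine IsCoprime.mul_left (IsCoprime.mul_left ?_ (hd.isCoprime_lam.pow_left)) hcd
    obtain ⟨v, rfl⟩ := hu
    exact ⟨(v⁻¹ : Oˣ), 0, by simp⟩
  have hulam : ∀ d : O, Primary d → D.sym (u * D.lam ^ k) d = 1 := by
    intro d hd
    obtain ⟨d', hd1, hd2⟩ := crt2 h9 d 1
    have hd'p : Primary d' := Primary.of_dvd_sub (h39.trans hd1) hd
    have hcd : IsCoprime c0 d' := isCoprime_of_dvd_sub_one hd2
    have h1 := h d' hd'p (hcopc d' hd'p hcd)
    rw [hc, D.mul_left _ _ _ hd'p, D.recip c0 d' hc0p hd'p, D.congr d' 1 c0 hc0p hd2,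
      D.one_left hc0p, mul_one] at h1
    rw [← h1, D.mul_left _ _ _ hd, D.mul_left _ _ _ hd'p, D.pow_left hd, D.pow_left hd'p,
      D.unit9 u d' d hu hd'p hd1, D.lam9 d' d hd'p hd1]
  obtain ⟨v, hv⟩ := hD.supp u k hu hulam
  have hright : ∀ a : O, IsCoprime a c0 → D.sym a c0 = 1 := by
    intro a ha
    obtain ⟨d, hd1, hd2⟩ := crt2 h9 1 a
    have hdp : Primary d := h39.trans hd1
    have hcd : IsCoprime c0 d := by rw [isCoprime_congr hd2]; exact ha.symm
    have h1 := h d hdp (hcopc d hdp hcd)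
    rw [hc, D.mul_left _ _ _ hdp, hulam d hdp, one_mul, D.recip c0 d hc0p hdp,
      D.congr d a c0 hc0p hd2] at h1
    exact h1
  obtain ⟨m, hm⟩ := cube_of_sym_right_eq_one hD c0 hc0p hright
  exact ⟨v * m, by rw [hc, hv, hm]; ring⟩

/-- non triviality of the symbol at a prime not above `3` -/
theorem exists_sym_ne_one {π : O} (hπ : Prime π) (hl : ¬ lam ∣ π) :
    ∃ a : O, IsCoprime a π ∧ sym a π ≠ 1 := by
  have : Fact (Prime π) := ⟨hπ⟩
  have : NeZero π := ⟨hπ.ne_zero⟩
  by_contra hcon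
  push Not at hcon
  obtain ⟨g, hg⟩ := IsCyclic.exists_generator (α := (Rs π)ˣ)
  obtain ⟨a, ha⟩ := rs_surj π (g : Rs π)
  have hcop : IsCoprime a π := by
    rw [isCoprime_comm, ← isUnit_rs, ha]; exact g.isUnit
  have h1 := hcon a hcop
  rw [sym_prime hπ] at h1
  have h2 := symP_spec (a := a) hπ hl
  rw [h1] at h2
  have h3 : (g : Rs π) ^ ((N π - 1) / 3) = 1 := by
    rw [← ha, ← map_pow, ← map_one (rs π), rs_eq]; exact h2
  have h4 : g ^ ((N π - 1) / 3) = 1 := by
    apply Units.ext; simpa using h3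
  have h5 : orderOf g = N π - 1 := by
    rw [orderOf_eq_card_of_forall_mem_zpowers hg, Nat.card_units, card_Rs]
  have h6 := orderOf_dvd_of_pow_eq_one h4
  rw [h5] at h6
  have h7 := four_le_N hπ hl
  have h8 : (N π - 1) / 3 ≠ 0 := by omega
  have h9 := Nat.le_of_dvd (Nat.pos_of_ne_zero h8) h6
  omega

end Vale.Agent.P006.KU
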