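import Vale.Agent.P006.KU.Count

/-!
P006, block KU: the class of a bottom row in the projective line over `O/p`, and the action of
`SL2(O)` on it (right multiplication of rows).
-/

namespace Vale.Agent.P006.KU

open Vale.Agent.P006 Matrix
open scoped BigOperators

variable (p : O) [hp : Fact (Prime p)]

/-- the class of the row `(c, d)` in the projective line over `O/p`: `none` is the point
`(0 : 1)`, and `some t` is the point `(1 : t)` -/
noncomputable def cls (c d : O) : Option (Rs p) :=
  if p ∣ c then none else some ((rs p c)⁻¹ * rs p d)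

theorem cls_eq_none_iff {c d : O} : cls p c d = none ↔ p ∣ c := by
  rw [cls]; split_ifs with h <;> simp [h]

theorem not_both {c d : O} (h : IsCoprime c d) : ¬ (p ∣ c ∧ p ∣ d) :=
  fun h' => hp.out.not_isUnit (h.isUnit_of_dvd' h'.1 h'.2)

theorem cls_eq_iff {c d c' d' : O} (h : ¬ (p ∣ c ∧ p ∣ d)) (h' : ¬ (p ∣ c' ∧ p ∣ d')) :
    cls p c d = cls p c' d' ↔ p ∣ c * d' - c' * d := by
  by_cases h1 : p ∣ c
  · have hd : ¬ p ∣ d := fun hd => h ⟨h1, hd⟩
    rw [(cls_eq_none_iff p).2 h1, eq_comm, cls_eq_none_iff]
    constructor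
    · intro h2; exact dvd_sub (h1.mul_right _) (h2.mul_right _)
    · intro h2
      have h3 : p ∣ c' * d := by
        have : c' * d = c * d' - (c * d' - c' * d) := by ring
        rw [this]; exact dvd_sub (h1.mul_right _) h2
      exact (hp.out.dvd_or_dvd h3).resolve_right hd
  · by_cases h2 : p ∣ c'
    · have hd : ¬ p ∣ d' := fun hd => h' ⟨h2, hd⟩
      rw [(cls_eq_none_iff p).2 h2, cls_eq_none_iff]
      constructor
      · intro h3; exact absurd h3 h1
      · intro h3
        have h4 : p ∣ c * d' := by
          have : c * d' = (c * d' - c' * d) + c' * d := by ring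
          rw [this]; exact dvd_add h3 (h2.mul_right _)
        exact (hp.out.dvd_or_dvd h4).resolve_right hd
    · rw [cls, cls, if_neg h1, if_neg h2, Option.some_inj]
      have n1 : rs p c ≠ 0 := fun h => h1 (rs_eq_zero.1 h)
      have n2 : rs p c' ≠ 0 := fun h => h2 (rs_eq_zero.1 h)
      rw [← rs_eq_zero, map_sub, map_mul, map_mul, sub_eq_zero]
      constructor
      · intro h3
        have h4 : rs p d = rs p c * ((rs p c')⁻¹ * rs p d') := by
          rw [← h3, mul_inv_cancel_left₀ n1]
        rw [h4]
        field_simp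
      · intro h3
        field_simp
        rw [mul_comm, ← h3, mul_comm]

theorem cls_eq_some_zero_iff {c d : O} (h : IsCoprime c d) : cls p c d = some 0 ↔ p ∣ d := by
  have h1 : cls p 1 0 = some 0 := by
    rw [cls, if_neg (fun h => hp.out.not_isUnit (isUnit_of_dvd_one h))]; simp
  rw [← h1, cls_eq_iff p (not_both p h) (not_both p isCoprime_one_left)]
  simp

/-- a representative row of a point of the projective line -/
noncomputable def rowOf : Option (Rs p) → O × O
  | none => (0, 1)
  | some t => (1, Function.surjInv (rs_surj p) t)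

theorem rowOf_not_both (x : Option (Rs p)) : ¬ (p ∣ (rowOf p x).1 ∧ p ∣ (rowOf p x).2) := by
  cases x with
  | none => exact not_both p isCoprime_one_right
  | some t => exact not_both p isCoprime_one_left

theorem cls_rowOf (x : Option (Rs p)) : cls p (rowOf p x).1 (rowOf p x).2 = x := by
  cases x with
  | none => rw [cls_eq_none_iff]; simp [rowOf]
  | some t =>
    have h : ¬ p ∣ (1 : O) := fun h => hp.out.not_isUnit (isUnit_of_dvd_one h)
    simp only [rowOf, cls, if_neg h, map_one, inv_one, one_mul]
    rw [Function.surjInv_eq (rs_surj p)]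

omit hp in
theorem mul_not_both (g : SpecialLinearGroup (Fin 2) O) {c d : O} (h : ¬ (p ∣ c ∧ p ∣ d)) :
    ¬ (p ∣ c * g 0 0 + d * g 1 0 ∧ p ∣ c * g 0 1 + d * g 1 1) := by
  rintro ⟨h1, h2⟩
  have hdet := det_eq g
  apply h
  constructor
  · have : c = (c * g 0 0 + d * g 1 0) * g 1 1 - (c * g 0 1 + d * g 1 1) * g 1 0 := by
      linear_combination (-c) * hdet
    rw [this]; exact dvd_sub (h1.mul_right _) (h2.mul_right _)
  · have : d = (c * g 0 1 + d * g 1 1) * g 0 0 - (c * g 0 0 + d * g 1 0) * g 0 1 := by
      linear_combination (-d) * hdet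
    rw [this]; exact dvd_sub (h2.mul_right _) (h1.mul_right _)

/-- right multiplication on the projective line -/
noncomputable def actFun (g : SpecialLinearGroup (Fin 2) O) (x : Option (Rs p)) :
    Option (Rs p) :=
  cls p ((rowOf p x).1 * g 0 0 + (rowOf p x).2 * g 1 0)
    ((rowOf p x).1 * g 0 1 + (rowOf p x).2 * g 1 1)

theorem cls_mul_eq (g : SpecialLinearGroup (Fin 2) O) {c d : O} (h : ¬ (p ∣ c ∧ p ∣ d)) :
    cls p (c * g 0 0 + d * g 1 0) (c * g 0 1 + d * g 1 1) = actFun p g (cls p c d) := by
  have h1 := cls_rowOf p (cls p c d)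
  rw [cls_eq_iff p (rowOf_not_both p _) h] at h1
  rw [actFun, cls_eq_iff p (mul_not_both p g h) (mul_not_both p g (rowOf_not_both p _))]
  have hdet := det_eq g
  set a := (rowOf p (cls p c d)).1
  set b := (rowOf p (cls p c d)).2
  have : (c * g 0 0 + d * g 1 0) * (a * g 0 1 + b * g 1 1)
      - (a * g 0 0 + b * g 1 0) * (c * g 0 1 + d * g 1 1) = -(a * d - c * b) := by
    linear_combination (c * b - a * d) * hdet
  rw [this, dvd_neg]; exact h1

/-- the permutation of the projective line given by right multiplication of rows by `g` -/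
noncomputable def actP1 (g : SpecialLinearGroup (Fin 2) O) : Equiv.Perm (Option (Rs p)) where
  toFun := actFun p g
  invFun := actFun p g⁻¹
  left_inv x := by
    have h := rowOf_not_both p x
    have h1 := mul_not_both p g h
    have h2 := cls_mul_eq p g⁻¹ h1
    have h3 := cls_mul_eq p g h
    rw [cls_rowOf] at h3
    rw [h3] at h2
    rw [← h2]
    conv_rhs => rw [← cls_rowOf p x]
    have hdet := det_eq g
    rw [inv_00, inv_01, inv_10, inv_11]
    congr 1
    · linear_combination (rowOf p x).1 * hdet
    · linear_combination (rowOf p x).2 * hdet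
  right_inv x := by
    have h := rowOf_not_both p x
    have h1 := mul_not_both p g⁻¹ h
    have h2 := cls_mul_eq p g h1
    have h3 := cls_mul_eq p g⁻¹ h
    rw [cls_rowOf] at h3
    rw [h3] at h2
    rw [← h2]
    conv_rhs => rw [← cls_rowOf p x]
    have hdet := det_eq g
    rw [inv_00, inv_01, inv_10, inv_11]
    congr 1
    · linear_combination (rowOf p x).1 * hdet
    · linear_combination (rowOf p x).2 * hdet

theorem cls_mul (g : SpecialLinearGroup (Fin 2) O) {c d : O} (h : IsCoprime c d) :
    cls p (c * g 0 0 + d * g 1 0) (c * g 0 1 + d * g 1 1) = actP1 p g (cls p c d) :=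
  cls_mul_eq p g (not_both p h)

theorem card_P1 : Nat.card (Option (Rs p)) = N p + 1 := by
  rw [Nat.card_eq_fintype_card, Fintype.card_option, fcard_Rs]

end Vale.Agent.P006.KU
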