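import Vale.Agent.P006.H611.T1S

/-!
P006, block KU: from smooth dyadic sums with all twists to the sharp cut-off, for one sequence.
Adapted from helper611's block T1S.
-/

namespace Vale.Agent.P006.KU.Sharp

open Finset H570 H611
open scoped Classical

section
variable {x : O → ℂ} {B M : ℝ}

/-- the smooth hypothesis -/
def Smooth (x : O → ℂ) (M : ℝ) : Prop :=
  ∀ Y τ : ℝ, 1 ≤ Y → ‖∑ c ∈ (nb (2 * Y)).filter Primary, x c * Udy (N c / Y) *
    Complex.exp ((τ : ℂ) * Complex.I * (Real.log (N c) : ℝ))‖ ≤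
      M * Y ^ (1 / 2 + 1 / 200 : ℝ) * (1 + |τ|) ^ (19 / 10 : ℝ)

theorem scale_long (hM : 0 ≤ M) (hs : Smooth x M) {X Y : ℝ} (hY : 1 ≤ Y) (hYX : 2 * Y ≤ X) :
    ‖∑ c ∈ (nb X).filter Primary, x c * Udy (N c / Y)‖ ≤ M * X ^ (1 / 2 + 1 / 200 : ℝ) := by
  have hY0 : 0 < Y := by linarith
  have h := hs Y 0 hY
  have e1 : ∑ c ∈ (nb X).filter Primary, x c * (Udy (N c / Y) : ℂ) =
      ∑ c ∈ (nb (2 * Y)).filter Primary, x c * Udy (N c / Y) *
        Complex.exp (((0 : ℝ) : ℂ) * Complex.I * (Real.log (N c) : ℝ)) := by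
    simp only [Complex.ofReal_zero, zero_mul, Complex.exp_zero, mul_one]
    symm
    refine sum_subset (filter_subset_filter _ (nb_mono hYX (by linarith))) fun c hc hc2 => ?_
    have : (Udy (N c / Y) : ℝ) = 0 := by
      by_contra hne
      have h1 := (Udy_supp hne).2
      apply hc2
      rw [mem_filter] at hc ⊢
      refine ⟨(mem_nb (by linarith)).2 ?_, hc.2⟩
      rwa [div_le_iff₀ hY0] at h1
    rw [this]; simp
  rw [e1]
  refine h.trans ?_
  have h1 : Y ^ (1 / 2 + 1 / 200 : ℝ) ≤ X ^ (1 / 2 + 1 / 200 : ℝ) :=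
    Real.rpow_le_rpow hY0.le (by linarith) (by norm_num)
  simp only [abs_zero, add_zero, Real.one_rpow, mul_one]
  gcongr

theorem scale_short (hx : ∀ c, Primary c → ‖x c‖ ≤ B) {X Y : ℝ} (hX : 0 ≤ X) (hY0 : 0 < Y)
    (hY : Y ≤ 1) :
    ‖∑ c ∈ (nb X).filter Primary, x c * Udy (N c / Y)‖ ≤ 32 * B := by
  have hB : 0 ≤ B := (norm_nonneg _).trans (hx 1 (by simp [Primary]))
  refine (norm_sum_le _ _).trans ?_
  have hb : ∀ c ∈ (nb X).filter Primary, ‖x c * (Udy (N c / Y) : ℂ)‖ ≤
      if c ∈ nb 2 then B else 0 := by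
    intro c hc
    rw [mem_filter] at hc
    have hU : ‖(Udy (N c / Y) : ℂ)‖ ≤ 1 := by
      rw [Complex.norm_real]; exact abs_Udy_le _
    split_ifs with h
    · rw [norm_mul]
      calc ‖x c‖ * ‖(Udy (N c / Y) : ℂ)‖ ≤ B * 1 := by
            gcongr
            exact hx c hc.2
        _ = B := mul_one B
    · have : (Udy (N c / Y) : ℝ) = 0 := by
        by_contra hne
        have h1 := (Udy_supp hne).2
        apply h
        rw [mem_nb (by norm_num)]
        rw [div_le_iff₀ hY0] at h1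
        linarith
      rw [this]; simp
  refine (sum_le_sum hb).trans ?_
  rw [← sum_filter, sum_const, nsmul_eq_mul]
  have h1 : ((((nb X).filter Primary).filter fun c => c ∈ nb 2).card : ℝ) ≤ 16 * 2 := by
    refine le_trans ?_ (card_nb_le (show (1 : ℝ) ≤ 2 by norm_num))
    exact_mod_cast card_le_card fun c hc => (mem_filter.1 hc).2
  calc _ ≤ 16 * 2 * B := by gcongr
    _ = _ := by ring

theorem scale_top {K Δ : ℝ} (hx : ∀ c, Primary c → ‖x c‖ ≤ B) (hM : 0 ≤ M) (hs : Smooth x M)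
    (hΔ0 : 0 < Δ) (hΔ1 : Δ ≤ 1 / 2) {h : ℝ → ℝ}
    (hh : ∀ u, 0 ≤ h u ∧ h u ≤ 1) (hh0 : ∀ u, 0 ≤ u → h u = 0)
    (hh1 : ∀ u, -1 ≤ u → u ≤ -(2 * Δ) → h u = 1)
    (hsum : ∀ {ι κ : Type} (Bs : Finset κ) (Cs : Finset ι) (y : ι → ℝ) (x : κ → ι → ℂ)
      (M1 M2 : ℝ), 0 ≤ M1 → 0 ≤ M2 →
      (∀ t : ℝ, ∑ b ∈ Bs, ‖∑ c ∈ Cs, x b c * Complex.exp ((t : ℂ) * Complex.I * y c)‖ ≤
        M1 * (1 + |t|) ^ (9 / 10 : ℝ) + M2 * (1 + |t|) ^ (19 / 10 : ℝ)) →
      ∑ b ∈ Bs, ‖∑ c ∈ Cs, x b c * (h (y c) : ℂ)‖ ≤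
        K * (M1 * Δ ^ (-(9 / 10) : ℝ) + M2 * Δ ^ (-(19 / 10) : ℝ)))
    {X : ℝ} (hX1 : 1 ≤ X) :
    ‖∑ c ∈ (nb X).filter Primary, x c * Udy (N c / X)‖ ≤
      K * (M * X ^ (1 / 2 + 1 / 200 : ℝ) * Δ ^ (-(19 / 10) : ℝ)) + B * (8 * Δ * X + 32 * √X) := by
  have hX0 : 0 < X := by linarith
  have hB : 0 ≤ B := (norm_nonneg _).trans (hx 1 (by simp [Primary]))
  have split : ‖∑ c ∈ (nb X).filter Primary, x c * (Udy (N c / X) : ℂ)‖ ≤
      ‖∑ c ∈ nb (2 * X), (if Primary c then x c * (Udy (N c / X) : ℂ) else 0) *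
        (h (Real.log (N c) - Real.log X) : ℂ)‖ +
      ‖∑ c ∈ (nb X).filter Primary,
        x c * (Udy (N c / X) : ℂ) * (1 - h (Real.log (N c) - Real.log X) : ℂ)‖ := by
    have e1 : ∑ c ∈ nb (2 * X), (if Primary c then x c * (Udy (N c / X) : ℂ) else 0) *
        (h (Real.log (N c) - Real.log X) : ℂ) = ∑ c ∈ (nb X).filter Primary,
          x c * (Udy (N c / X) : ℂ) * (h (Real.log (N c) - Real.log X) : ℂ) := by
      rw [sum_filter]
      symm
      have hsub : nb X ⊆ nb (2 * X) := nb_mono (by linarith) hX0.le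
      refine (sum_subset hsub fun c _ hc2 => ?_).trans (sum_congr rfl fun c _ => ?_)
      · have hN : X ≤ N c := by
          rw [mem_nb hX0.le, not_le] at hc2
          exact hc2.le
        have : h (Real.log (N c) - Real.log X) = 0 := by
          apply hh0
          have := Real.log_le_log hX0 hN
          linarith
        rw [this]
        simp
      · split_ifs <;> simp
    rw [e1]
    refine le_trans (le_of_eq ?_) (norm_add_le _ _)
    rw [← sum_add_distrib]
    congr 1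
    refine sum_congr rfl fun c _ => ?_
    ring
  refine split.trans (add_le_add ?_ ?_)
  · -- smooth part
    have h1 := hsum (κ := Unit) {()} (nb (2 * X)) (fun c => Real.log (N c) - Real.log X)
      (fun _ c => if Primary c then x c * (Udy (N c / X) : ℂ) else 0) 0
      (M * X ^ (1 / 2 + 1 / 200 : ℝ)) le_rfl (by positivity) ?_
    · simpa using h1
    intro t
    rw [sum_singleton, zero_mul, zero_add]
    refine le_trans (le_of_eq ?_) (hs X t hX1)
    have e2 : ∀ c : O, Complex.exp ((t : ℂ) * Complex.I * ((Real.log (N c) - Real.log X : ℝ) : ℂ)) =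
        Complex.exp ((t : ℂ) * Complex.I * (Real.log (N c) : ℝ)) *
          Complex.exp (-((t : ℂ) * Complex.I * (Real.log X : ℝ))) := by
      intro c
      rw [← Complex.exp_add]
      congr 1
      push_cast
      ring
    simp only [e2]
    have e3 : ∑ c ∈ nb (2 * X), (if Primary c then x c * (Udy (N c / X) : ℂ) else 0) *
        (Complex.exp ((t : ℂ) * Complex.I * (Real.log (N c) : ℝ)) *
          Complex.exp (-((t : ℂ) * Complex.I * (Real.log X : ℝ)))) =
        (∑ c ∈ (nb (2 * X)).filter Primary,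
          x c * Udy (N c / X) * Complex.exp ((t : ℂ) * Complex.I * (Real.log (N c) : ℝ))) *
            Complex.exp (-((t : ℂ) * Complex.I * (Real.log X : ℝ))) := by
      rw [sum_filter, sum_mul]
      refine sum_congr rfl fun c _ => ?_
      split_ifs <;> ring
    rw [e3, norm_mul]
    have : ‖Complex.exp (-((t : ℂ) * Complex.I * (Real.log X : ℝ)))‖ = 1 := by
      rw [Complex.norm_exp]
      simp
    rw [this, mul_one]
  · -- boundary
    refine (norm_sum_le _ _).trans ?_
    have hb : ∀ c ∈ (nb X).filter Primary, ‖x c * (Udy (N c / X) : ℂ) *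
        (1 - h (Real.log (N c) - Real.log X) : ℂ)‖ ≤
        if X - 2 * Δ * X < N c then B else 0 := by
      intro c hc
      rw [mem_filter, mem_nb hX0.le] at hc
      have hU : ‖(Udy (N c / X) : ℂ)‖ ≤ 1 := by
        rw [Complex.norm_real]; exact abs_Udy_le _
      have hH : ‖(1 - h (Real.log (N c) - Real.log X) : ℂ)‖ ≤ 1 := by
        rw [← Complex.ofReal_one, ← Complex.ofReal_sub, Complex.norm_real, Real.norm_eq_abs, abs_le]
        have := hh (Real.log (N c) - Real.log X)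
        constructor <;> linarith [this.1, this.2]
      have hNpos : (0 : ℝ) < N c := by exact_mod_cast N_pos hc.2.ne_zero
      split_ifs with h5
      · rw [norm_mul, norm_mul]
        calc ‖x c‖ * ‖(Udy (N c / X) : ℂ)‖ * ‖(1 - h (Real.log (N c) - Real.log X) : ℂ)‖
            ≤ B * 1 * 1 := by
              gcongr
              exact hx c hc.2
          _ = B := by ring
      · rw [not_lt] at h5
        by_cases hne : Udy (N c / X) = 0
        · rw [hne]; simp
        · have h6 := (Udy_supp hne).1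
          have h7 : h (Real.log (N c) - Real.log X) = 1 := by
            rw [← Real.log_div hNpos.ne' hX0.ne']
            apply hh1
            · have h8 : Real.log (1 / 2) ≤ Real.log (N c / X) :=
                Real.log_le_log (by norm_num) h6
              have h9 : -1 ≤ Real.log (1 / 2) := by
                have := Real.one_sub_inv_le_log_of_pos (show (0 : ℝ) < 1 / 2 by norm_num)
                norm_num at this ⊢
                linarith
              linarith
            · have h8 : (N c : ℝ) / X ≤ 1 - 2 * Δ := by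
                rw [div_le_iff₀ hX0]; linarith
              have h9 := Real.log_le_sub_one_of_pos (show (0 : ℝ) < N c / X by positivity)
              linarith
          rw [h7]
          simp
    refine (sum_le_sum hb).trans ?_
    rw [← sum_filter, sum_const, nsmul_eq_mul]
    have hcard : ((((nb X).filter Primary).filter fun c => X - 2 * Δ * X < N c).card : ℝ) ≤
        4 * (2 * Δ * X) + 32 * √X := by
      refine le_trans ?_ (short_count hX1 (show 0 ≤ 2 * Δ * X by positivity)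
        (by nlinarith))
      have : (((nb X).filter Primary).filter fun c => X - 2 * Δ * X < (N c : ℝ)) ⊆
          (nb X).filter fun c => X - 2 * Δ * X < N c := by
        intro c hc
        simp only [mem_filter] at hc ⊢
        exact ⟨hc.1.1, hc.2⟩
      exact_mod_cast card_le_card this
    calc _ ≤ (4 * (2 * Δ * X) + 32 * √X) * B := by gcongr
      _ = _ := by ring

end

/-- **sharp cut-off from the smooth one** -/
theorem sharp_of_smooth : ∃ K : ℝ, 0 ≤ K ∧ ∀ (x : O → ℂ) (B M : ℝ), 0 ≤ M →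
    (∀ c, Primary c → ‖x c‖ ≤ B) → Smooth x M → ∀ X : ℝ, 1 ≤ X →
      ‖∑ c ∈ (nb X).filter Primary, x c‖ ≤ K * (B + M) * X ^ (5 / 6 - 1 / 1000 : ℝ) := by
  obtain ⟨K, hK, hcut⟩ := exists_cut
  refine ⟨20001 * 32 + 4 * K + 36, by positivity, fun x B M hM hx hs X hX => ?_⟩
  have hX0 : 0 < X := by linarith
  have hB : 0 ≤ B := (norm_nonneg _).trans (hx 1 (by simp [Primary]))
  set Δ : ℝ := X ^ (-(1 / 6 + 3 / 1000) : ℝ) / 2 with hΔdef
  have hΔ0 : 0 < Δ := by positivity
  have hΔ1 : Δ ≤ 1 / 2 := by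
    have : X ^ (-(1 / 6 + 3 / 1000) : ℝ) ≤ 1 := Real.rpow_le_one_of_one_le_of_nonpos hX (by norm_num)
    rw [hΔdef]; linarith
  obtain ⟨h, hh, hh0, hh1, hsum⟩ := hcut Δ hΔ0 (by linarith)
  set J : ℕ := ⌈Real.logb 2 X⌉₊ with hJdef
  have hJ1 : X ≤ 2 ^ J := by
    have h1 : X = 2 ^ (Real.logb 2 X) := (Real.rpow_logb (by norm_num) (by norm_num) hX0).symm
    have h2 : (2 : ℝ) ^ (Real.logb 2 X) ≤ 2 ^ (J : ℝ) :=
      Real.rpow_le_rpow_of_exponent_le (by norm_num) (Nat.le_ceil _)
    rw [Real.rpow_natCast] at h2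
    linarith
  have hJ2 : (J : ℝ) ≤ 20001 * X ^ (1 / 10000 : ℝ) := by
    have h1 : (J : ℝ) < Real.logb 2 X + 1 := Nat.ceil_lt_add_one (Real.logb_nonneg (by norm_num) hX)
    have h2 : Real.logb 2 X ≤ 2 * Real.log X := by
      rw [Real.logb, div_le_iff₀ (Real.log_pos (by norm_num))]
      have := Real.log_two_gt_d9
      have h3 : 0 ≤ Real.log X := Real.log_nonneg hX
      nlinarith
    have h3 := Real.log_le_rpow_div hX0.le (show (0 : ℝ) < 1 / 10000 by norm_num)
    have h4 : 1 ≤ X ^ (1 / 10000 : ℝ) := Real.one_le_rpow hX (by norm_num)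
    have h5 : X ^ (1 / 10000 : ℝ) / (1 / 10000) = 10000 * X ^ (1 / 10000 : ℝ) := by ring
    rw [h5] at h3
    linarith
  have hpart : ∀ c ∈ (nb X).filter Primary, ∑ j ∈ range (J + 1), Udy (N c / (X / 2 ^ j)) = 1 := by
    intro c hc
    rw [mem_filter, mem_nb hX0.le] at hc
    have e1 : ∀ j : ℕ, (N c : ℝ) / (X / 2 ^ j) = 2 ^ j * (N c / X) := by
      intro j; field_simp
    simp only [e1]
    have hN1 : (1 : ℝ) ≤ N c := by exact_mod_cast N_pos hc.2.ne_zero
    rw [sum_Udy, psi_one (by rw [div_le_one hX0]; exact hc.1), psi_zero, sub_zero]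
    rw [pow_succ, mul_div_assoc', le_div_iff₀ hX0]
    nlinarith
  have hsplit : ‖∑ c ∈ (nb X).filter Primary, x c‖ ≤
      ∑ j ∈ range (J + 1), ‖∑ c ∈ (nb X).filter Primary,
        x c * (Udy (N c / (X / 2 ^ j)) : ℂ)‖ := by
    refine le_trans (le_of_eq ?_) (norm_sum_le _ _)
    congr 1
    rw [sum_comm]
    refine sum_congr rfl fun c hc => ?_
    rw [← mul_sum, ← Complex.ofReal_sum, hpart c hc]
    simp
  have htop := scale_top hx hM hs hΔ0 hΔ1 hh hh0 hh1 hsum hX
  have hE : 1 ≤ X ^ (1 / 2 + 1 / 200 : ℝ) := Real.one_le_rpow hX (by norm_num)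
  have hlow : ∀ j ∈ range J, ‖∑ c ∈ (nb X).filter Primary,
      x c * Udy (N c / (X / 2 ^ (j + 1)))‖ ≤ 32 * (B + M) * X ^ (1 / 2 + 1 / 200 : ℝ) := by
    intro j _
    have hYpos : 0 < X / 2 ^ (j + 1) := by positivity
    rcases le_total 1 (X / 2 ^ (j + 1)) with h1 | h1
    · refine (scale_long hM hs h1 ?_).trans ?_
      · rw [mul_div_assoc', div_le_iff₀ (by positivity), pow_succ]
        have : (1 : ℝ) ≤ 2 ^ j := one_le_pow₀ (by norm_num)
        nlinarith
      · gcongr
        linarith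
    · refine (scale_short hx hX0.le hYpos h1).trans ?_
      calc 32 * B ≤ 32 * (B + M) := by linarith
        _ = 32 * (B + M) * 1 := by ring
        _ ≤ _ := by gcongr
  calc ‖∑ c ∈ (nb X).filter Primary, x c‖
      ≤ ∑ j ∈ range (J + 1), ‖∑ c ∈ (nb X).filter Primary,
        x c * (Udy (N c / (X / 2 ^ j)) : ℂ)‖ := hsplit
    _ = ∑ j ∈ range J, ‖∑ c ∈ (nb X).filter Primary,
        x c * (Udy (N c / (X / 2 ^ (j + 1))) : ℂ)‖ +
          ‖∑ c ∈ (nb X).filter Primary, x c * (Udy (N c / X) : ℂ)‖ := by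
        rw [sum_range_succ']
        simp
    _ ≤ J * (32 * (B + M) * X ^ (1 / 2 + 1 / 200 : ℝ)) +
        (K * (M * X ^ (1 / 2 + 1 / 200 : ℝ) * Δ ^ (-(19 / 10) : ℝ)) +
          B * (8 * Δ * X + 32 * √X)) := by
        refine add_le_add ?_ htop
        refine (sum_le_sum hlow).trans ?_
        rw [sum_const, card_range, nsmul_eq_mul]
    _ ≤ (20001 * 32 * (B + M)) * X ^ (5 / 6 - 1 / 1000 : ℝ) +
        (K * (M * (4 * X ^ (5 / 6 - 1 / 1000 : ℝ))) + B * (36 * X ^ (5 / 6 - 1 / 1000 : ℝ))) := by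
        have mono : ∀ a : ℝ, a ≤ 5 / 6 - 1 / 1000 → X ^ a ≤ X ^ (5 / 6 - 1 / 1000 : ℝ) :=
          fun a ha => Real.rpow_le_rpow_of_exponent_le hX ha
        have t0 : (J : ℝ) * (32 * (B + M) * X ^ (1 / 2 + 1 / 200 : ℝ))
            ≤ (20001 * 32 * (B + M)) * X ^ (5 / 6 - 1 / 1000 : ℝ) := by
          calc (J : ℝ) * (32 * (B + M) * X ^ (1 / 2 + 1 / 200 : ℝ))
              ≤ (20001 * X ^ (1 / 10000 : ℝ)) *
                (32 * (B + M) * X ^ (1 / 2 + 1 / 200 : ℝ)) := by
                gcongr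
            _ = (20001 * 32 * (B + M)) * X ^ (1 / 10000 + (1 / 2 + 1 / 200) : ℝ) := by
                rw [Real.rpow_add hX0 (1 / 10000)]
                ring
            _ ≤ _ := mul_le_mul_of_nonneg_left (mono _ (by norm_num)) (by positivity)
        have t2 : X ^ (1 / 2 + 1 / 200 : ℝ) * Δ ^ (-(19 / 10) : ℝ) ≤
            4 * X ^ (5 / 6 - 1 / 1000 : ℝ) := by
          have e1 : Δ ^ (-(19 / 10) : ℝ) = X ^ ((19 / 10) * (1 / 6 + 3 / 1000) : ℝ) * 2 ^ (19 / 10 : ℝ) := by
            rw [hΔdef, Real.div_rpow (by positivity) (by norm_num), ← Real.rpow_mul hX0.le,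
              Real.rpow_neg (by norm_num : (0 : ℝ) ≤ 2), div_inv_eq_mul]
            norm_num
          have e3 : (2 : ℝ) ^ (19 / 10 : ℝ) ≤ 4 := by
            calc (2 : ℝ) ^ (19 / 10 : ℝ) ≤ 2 ^ (2 : ℝ) :=
                  Real.rpow_le_rpow_of_exponent_le (by norm_num) (by norm_num)
              _ = 4 := by norm_num
          rw [e1]
          calc X ^ (1 / 2 + 1 / 200 : ℝ) *
                (X ^ ((19 / 10) * (1 / 6 + 3 / 1000) : ℝ) * 2 ^ (19 / 10 : ℝ))
              ≤ X ^ (1 / 2 + 1 / 200 : ℝ) *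
                (X ^ ((19 / 10) * (1 / 6 + 3 / 1000) : ℝ) * 4) := by gcongr
            _ = 4 * X ^ ((1 / 2 + 1 / 200) + (19 / 10) * (1 / 6 + 3 / 1000) : ℝ) := by
                rw [Real.rpow_add hX0 (1 / 2 + 1 / 200)]
                ring
            _ ≤ _ := mul_le_mul_of_nonneg_left (mono _ (by norm_num)) (by positivity)
        have t3 : 8 * Δ * X + 32 * √X ≤ 36 * X ^ (5 / 6 - 1 / 1000 : ℝ) := by
          have e1 : Δ * X ≤ X ^ (5 / 6 - 1 / 1000 : ℝ) / 2 := by
            have : Δ * X = X ^ (-(1 / 6 + 3 / 1000) + 1 : ℝ) / 2 := by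
              rw [Real.rpow_add hX0, Real.rpow_one, hΔdef]
              ring
            rw [this]
            have := mono (-(1 / 6 + 3 / 1000) + 1) (by norm_num)
            linarith
          have e2 : √X ≤ X ^ (5 / 6 - 1 / 1000 : ℝ) := by
            rw [Real.sqrt_eq_rpow]
            exact mono _ (by norm_num)
          nlinarith
        have t2' := mul_le_mul_of_nonneg_left t2 hM
        have t3' := mul_le_mul_of_nonneg_left t3 hB
        refine add_le_add t0 (add_le_add (mul_le_mul_of_nonneg_left ?_ hK) t3')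
        linarith
    _ ≤ (20001 * 32 + 4 * K + 36) * (B + M) * X ^ (5 / 6 - 1 / 1000 : ℝ) := by
        set Z : ℝ := X ^ (5 / 6 - 1 / 1000 : ℝ) with hZ
        have hZ0 : 0 ≤ Z := by positivity
        have h1 : 0 ≤ K * B * Z := by positivity
        have h2 : 0 ≤ M * Z := by positivity
        nlinarith

end Vale.Agent.P006.KU.Sharp
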