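import Vale.Agent.P006.KU.Sharp1
import Vale.Agent.P006.V2.FCIn
import Vale.Agent.P006.TI.Zeta2

/-!
P006, block KU: smooth dyadic sums of normalised Gauss sums minus their model.
-/

namespace Vale.Agent.P006.KU.Sharp

open Finset H570 H611 MeasureTheory
open Vale.Agent.P006.KER (Nice)
open scoped Classical ContDiff

/-- the dyadic weight, complex valued -/
noncomputable def U (x : ℝ) : ℂ := (Udy x : ℂ)

theorem nice_U : Nice U (1 / 2) 2 where
  smooth := Complex.ofRealCLM.contDiff.comp contDiff_Udy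
  pos := by norm_num
  le := by norm_num
  supp := fun x hx => by
    have : Udy x = 0 := by
      by_contra h
      exact hx (Udy_supp h)
    rw [U, this, Complex.ofReal_zero]

/-- the model coefficient -/
noncomputable def mo (c : O) : ℂ := if Squarefree c then (((N c : ℝ) ^ (-(1 / 6) : ℝ) : ℝ) : ℂ) else 0

/-- Gauss sum minus its model -/
noncomputable def wm (θ : O → ℂ) (k c : O) : ℂ := gt k c - θ k / TI.kap * mo c

theorem norm_mo_le {c : O} (hc : Primary c) : ‖mo c‖ ≤ 1 := by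
  unfold mo
  split_ifs
  · rw [Complex.norm_real, Real.norm_of_nonneg (by positivity)]
    apply Real.rpow_le_one_of_one_le_of_nonpos _ (by norm_num)
    exact_mod_cast N_pos hc.ne_zero
  · rw [norm_zero]; exact zero_le_one

theorem norm_gt_le_N {k c : O} (hk : k ≠ 0) (hc : Primary c) : ‖gt k c‖ ≤ N k := by
  have h1 := CRB.normSq_gt_le hc k
  have h2 : EuclideanDomain.gcd k c ∣ k := EuclideanDomain.gcd_dvd_left k c
  have h3 : N (EuclideanDomain.gcd k c) ≤ N k := Nat.le_of_dvd (N_pos hk) (N_dvd_N h2)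
  have h4 : (N (EuclideanDomain.gcd k c) : ℝ) ≤ N k := by exact_mod_cast h3
  have h5 : (1 : ℝ) ≤ N k := by exact_mod_cast N_pos hk
  have h6 := norm_nonneg (gt k c)
  nlinarith

theorem norm_wm_le {θ : O → ℂ} {k c : O} (hk : k ≠ 0) (hc : Primary c) :
    ‖wm θ k c‖ ≤ N k + ‖θ k‖ / TI.kap := by
  unfold wm
  refine (norm_sub_le _ _).trans (add_le_add (norm_gt_le_N hk hc) ?_)
  rw [norm_mul, norm_div, Complex.norm_real, Real.norm_of_nonneg TI.kap_pos.le]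
  have := norm_mo_le hc
  have h2 : 0 ≤ ‖θ k‖ / TI.kap := div_nonneg (norm_nonneg _) TI.kap_pos.le
  nlinarith

theorem cpow_eq_exp {c : O} (hc : c ≠ 0) (τ : ℝ) :
    (N c : ℂ) ^ ((τ : ℂ) * Complex.I)
      = Complex.exp ((τ : ℂ) * Complex.I * (Real.log (N c) : ℝ)) := by
  have h : (N c : ℂ) ≠ 0 := by exact_mod_cast (N_pos hc).ne'
  rw [Complex.cpow_def_of_ne_zero h, mul_comm]
  congr 2
  rw [Complex.ofReal_log (Nat.cast_nonneg _), Complex.ofReal_natCast]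

/-- the Gauss sum part -/
theorem FS_eq_sum (τ : ℝ) (k : O) {Y : ℝ} (hY : 0 < Y) :
    V2.FS U τ k Y = ∑ c ∈ (nb (2 * Y)).filter Primary, gt k c * Udy (N c / Y) *
      Complex.exp ((τ : ℂ) * Complex.I * (Real.log (N c) : ℝ)) := by
  rw [V2.FS, tsum_eq_sum (s := (nb (2 * Y)).filter Primary)]
  · refine sum_congr rfl fun c hc => ?_
    have hP : Primary c := (mem_filter.1 hc).2
    rw [if_pos hP, cpow_eq_exp hP.ne_zero, U]
    ring
  · intro c hc
    by_cases hP : Primary c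
    · rw [if_pos hP]
      have : U (N c / Y) = 0 := by
        rw [U, Complex.ofReal_eq_zero]
        by_contra hne
        have h1 := (Udy_supp hne).2
        rw [div_le_iff₀ hY] at h1
        exact hc (mem_filter.2 ⟨(mem_nb (by linarith)).2 h1, hP⟩)
      rw [this, mul_zero, mul_zero]
    · rw [if_neg hP]

/-- the model part -/
theorem mo_eq_sum (τ : ℝ) {Y : ℝ} (hY : 0 < Y) :
    ∑ c ∈ (nb (2 * Y)).filter Primary, mo c * Udy (N c / Y) *
      Complex.exp ((τ : ℂ) * Complex.I * (Real.log (N c) : ℝ))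
      = ∑ c ∈ TI.SM 1 (2 * Y), (N c : ℂ) ^ (((-(1 / 6) : ℝ) : ℂ) + τ * Complex.I) * U (N c / Y) := by
  have e : TI.SM 1 (2 * Y) = ((nb (2 * Y)).filter Primary).filter Squarefree := by
    ext c
    rw [TI.mem_SM, mem_filter, mem_filter, mem_nb (by linarith)]
    simp only [one_dvd, true_and]
    tauto
  rw [e, sum_filter (s := (nb (2 * Y)).filter Primary)]
  refine sum_congr rfl fun c hc => ?_
  have hP : Primary c := (mem_filter.1 hc).2
  have hN : (N c : ℂ) ≠ 0 := by exact_mod_cast (N_pos hP.ne_zero).ne'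
  by_cases hs : Squarefree c
  · rw [if_pos hs, mo, if_pos hs, Complex.cpow_add _ _ hN, cpow_eq_exp hP.ne_zero, U,
      Complex.ofReal_cpow (Nat.cast_nonneg _), Complex.ofReal_natCast]
    ring
  · rw [if_neg hs, mo, if_neg hs]
    ring

/-- the smooth estimate -/
theorem smooth_wm {θ : O → ℂ} (h : V2.FCHyp θ) : ∃ C : ℝ, 0 ≤ C ∧ ∀ k : O, k ≠ 0 →
    Smooth (wm θ k) (C * (N k + ‖θ k‖)) := by
  obtain ⟨C1, hC1, h1⟩ := h U (1 / 2) 2 nice_U (1 / 100) (by norm_num)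
  set C2 : ℝ := TI.M1 (3 / 5) * (HB.D 1).card * TI.CU U (-(1 / 6)) (3 / 5) / TI.kap with hC2
  have hkap := TI.kap_pos
  have hC20 : 0 ≤ C2 := by
    have e1 := TI.M1_nonneg (3 / 5)
    have e2 := TI.CU_nonneg U (-(1 / 6)) (3 / 5)
    positivity
  refine ⟨√(2 * C1) + C2, by positivity, fun k hk Y τ hY => ?_⟩
  have hY0 : 0 < Y := by linarith
  have hN1 : (1 : ℝ) ≤ N k := by exact_mod_cast N_pos hk
  set T : ℝ := 1 + |τ| with hT
  have hT1 : 1 ≤ T := by have := abs_nonneg τ; linarith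
  have hT0 : 0 < T := by linarith
  -- splitting
  have e0 : ∑ c ∈ (nb (2 * Y)).filter Primary, wm θ k c * Udy (N c / Y) *
      Complex.exp ((τ : ℂ) * Complex.I * (Real.log (N c) : ℝ))
      = (V2.FS U τ k Y - V2.FM U τ (θ k) Y) - θ k / TI.kap *
        (∑ c ∈ TI.SM 1 (2 * Y), (N c : ℂ) ^ (((-(1 / 6) : ℝ) : ℂ) + τ * Complex.I) * U (N c / Y)
          - (TI.kap * TI.vr 1 : ℝ) * (Y : ℂ) ^ (((-(1 / 6) : ℝ) : ℂ) + τ * Complex.I + 1) *
            mellin U (((-(1 / 6) : ℝ) : ℂ) + τ * Complex.I + 1)) := by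
    have ha : (((-(1 / 6) : ℝ) : ℂ) + τ * Complex.I + 1) = (5 / 6 : ℂ) + τ * Complex.I := by
      push_cast; ring
    have hk0 : (TI.kap : ℂ) ≠ 0 := by exact_mod_cast hkap.ne'
    rw [ha, TI.vr_one, mul_one, FS_eq_sum τ k hY0, ← mo_eq_sum τ hY0, V2.FM, mul_sub, mul_sum]
    have e3 : θ k / (TI.kap : ℂ) * ((TI.kap : ℂ) * (Y : ℂ) ^ ((5 / 6 : ℂ) + τ * Complex.I) *
        mellin U ((5 / 6 : ℂ) + τ * Complex.I)) = θ k * ((Y : ℂ) ^ ((5 / 6 : ℂ) + τ * Complex.I) *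
        mellin U ((5 / 6 : ℂ) + τ * Complex.I)) := by
      field_simp
    rw [e3, sub_sub_sub_comm, sub_self, sub_zero, ← sum_sub_distrib]
    refine sum_congr rfl fun c _ => ?_
    rw [wm]; ring
  rw [e0]
  refine (norm_sub_le _ _).trans ?_
  -- first part
  have a1 : ‖V2.FS U τ k Y - V2.FM U τ (θ k) Y‖ ≤
      √(2 * C1) * N k * Y ^ (1 / 2 + 1 / 200 : ℝ) * T ^ (19 / 10 : ℝ) := by
    have h2 := h1 (N k) Y τ hN1 hY {k} (fun _ => Y) (by simpa using hk) (by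
      intro m _; exact ⟨le_rfl, by linarith⟩)
    rw [sum_singleton] at h2
    have h3 : ‖V2.FS U τ k Y - V2.FM U τ (θ k) Y‖ ^ 2 ≤
        (√(2 * C1) * N k * Y ^ (1 / 2 + 1 / 200 : ℝ) * T ^ (19 / 10 : ℝ)) ^ 2 := by
      refine h2.trans ?_
      have hT3 : (N k : ℝ) * Y * T + Y * T ^ 3 ≤ 2 * (N k * Y * T ^ 3) := by
        have i1 : (N k : ℝ) * Y * T ≤ N k * Y * T ^ 3 := by
          have : T ≤ T ^ 3 := le_self_pow₀ hT1 three_ne_zero
          gcongr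
        have i2 : Y * T ^ 3 ≤ N k * Y * T ^ 3 := by
          have : 1 * (Y * T ^ 3) ≤ N k * (Y * T ^ 3) := by gcongr
          linarith
        linarith
      have hpow : ((N k : ℝ) * Y * T) ^ (1 / 100 : ℝ)
          = (N k : ℝ) ^ (1 / 100 : ℝ) * Y ^ (1 / 100 : ℝ) * T ^ (1 / 100 : ℝ) := by
        rw [Real.mul_rpow (by positivity) hT0.le, Real.mul_rpow (by positivity) hY0.le]
      have j1 : (N k : ℝ) ^ (1 / 100 : ℝ) ≤ N k := by
        conv_rhs => rw [← Real.rpow_one (N k : ℝ)]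
        exact Real.rpow_le_rpow_of_exponent_le hN1 (by norm_num)
      have j2 : (Y ^ (1 / 2 + 1 / 200 : ℝ)) ^ 2 = Y ^ (1 / 100 : ℝ) * Y := by
        rw [← Real.rpow_natCast, ← Real.rpow_mul hY0.le]
        conv_rhs => rw [← Real.rpow_one Y, ← Real.rpow_mul hY0.le, ← Real.rpow_add hY0]
        norm_num
      have j3 : T ^ (1 / 100 : ℝ) * T ^ 3 ≤ (T ^ (19 / 10 : ℝ)) ^ 2 := by
        rw [← Real.rpow_natCast, ← Real.rpow_natCast, ← Real.rpow_mul hT0.le,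
          ← Real.rpow_add hT0]
        exact Real.rpow_le_rpow_of_exponent_le hT1 (by norm_num)
      have j4 : √(2 * C1) ^ 2 = 2 * C1 := Real.sq_sqrt (by positivity)
      calc C1 * ((N k : ℝ) * Y * T) ^ (1 / 100 : ℝ) * (N k * Y * T + Y * T ^ 3)
          ≤ C1 * ((N k : ℝ) ^ (1 / 100 : ℝ) * Y ^ (1 / 100 : ℝ) * T ^ (1 / 100 : ℝ)) *
            (2 * (N k * Y * T ^ 3)) := by
            rw [hpow]; gcongr
        _ = (2 * C1) * ((N k : ℝ) ^ (1 / 100 : ℝ) * N k) * (Y ^ (1 / 100 : ℝ) * Y) *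
            (T ^ (1 / 100 : ℝ) * T ^ 3) := by ring
        _ ≤ (2 * C1) * ((N k : ℝ) * N k) * (Y ^ (1 / 100 : ℝ) * Y) *
            ((T ^ (19 / 10 : ℝ)) ^ 2) := by gcongr
        _ = (√(2 * C1) * N k * Y ^ (1 / 2 + 1 / 200 : ℝ) * T ^ (19 / 10 : ℝ)) ^ 2 := by
            rw [mul_pow, mul_pow, mul_pow, j2, j4]; ring
    exact (pow_le_pow_iff_left₀ (norm_nonneg _) (by positivity) two_ne_zero).1 h3
  -- second part
  have a2 : ‖θ k / TI.kap *
        (∑ c ∈ TI.SM 1 (2 * Y), (N c : ℂ) ^ (((-(1 / 6) : ℝ) : ℂ) + τ * Complex.I) * U (N c / Y)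
          - (TI.kap * TI.vr 1 : ℝ) * (Y : ℂ) ^ (((-(1 / 6) : ℝ) : ℂ) + τ * Complex.I + 1) *
            mellin U (((-(1 / 6) : ℝ) : ℂ) + τ * Complex.I + 1))‖ ≤
      C2 * ‖θ k‖ * Y ^ (1 / 2 + 1 / 200 : ℝ) * T ^ (19 / 10 : ℝ) := by
    have h2 := TI.model_sum nice_U (θ := 3 / 5) (by norm_num) (by norm_num) (-(1 / 6)) τ hY0
      (Z := 2 * Y) le_rfl primary_one squarefree_one
    rw [norm_mul, norm_div, Complex.norm_real, Real.norm_of_nonneg hkap.le]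
    have e4 : Y ^ (-(1 / 6) : ℝ) * (Y / N 1) ^ (3 / 5 : ℝ) ≤ Y ^ (1 / 2 + 1 / 200 : ℝ) := by
      rw [N_one, Nat.cast_one, div_one, ← Real.rpow_add hY0]
      exact Real.rpow_le_rpow_of_exponent_le hY (by norm_num)
    have e5 : T ≤ T ^ (19 / 10 : ℝ) := by
      conv_lhs => rw [← Real.rpow_one T]
      exact Real.rpow_le_rpow_of_exponent_le hT1 (by norm_num)
    have i1 := TI.M1_nonneg (3 / 5)
    have i2 := TI.CU_nonneg U (-(1 / 6)) (3 / 5)
    calc ‖θ k‖ / TI.kap * _ ≤ ‖θ k‖ / TI.kap * (TI.M1 (3 / 5) * (HB.D 1).card *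
          TI.CU U (-(1 / 6)) (3 / 5) * T * (Y ^ (-(1 / 6) : ℝ) * (Y / N 1) ^ (3 / 5 : ℝ))) := by
          gcongr
      _ ≤ ‖θ k‖ / TI.kap * (TI.M1 (3 / 5) * (HB.D 1).card *
          TI.CU U (-(1 / 6)) (3 / 5) * T ^ (19 / 10 : ℝ) * Y ^ (1 / 2 + 1 / 200 : ℝ)) := by
          gcongr
      _ = _ := by rw [hC2]; ring
  refine (add_le_add a1 a2).trans ?_
  set Z : ℝ := Y ^ (1 / 2 + 1 / 200 : ℝ) * T ^ (19 / 10 : ℝ) with hZ
  have hZ0 : 0 ≤ Z := by positivity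
  have hsq : 0 ≤ √(2 * C1) := Real.sqrt_nonneg _
  have hθ : 0 ≤ ‖θ k‖ := norm_nonneg _
  have i3 : 0 ≤ √(2 * C1) * ‖θ k‖ * Z := by positivity
  have i4 : 0 ≤ C2 * N k * Z := by positivity
  calc √(2 * C1) * N k * Y ^ (1 / 2 + 1 / 200 : ℝ) * T ^ (19 / 10 : ℝ) +
        C2 * ‖θ k‖ * Y ^ (1 / 2 + 1 / 200 : ℝ) * T ^ (19 / 10 : ℝ)
      = √(2 * C1) * N k * Z + C2 * ‖θ k‖ * Z := by rw [hZ]; ring
    _ ≤ (√(2 * C1) + C2) * (N k + ‖θ k‖) * Z := by nlinarith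
    _ = _ := by rw [hZ]; ring

end Vale.Agent.P006.KU.Sharp
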