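import Vale.Agent.P006.KU.Sharp2
import Vale.Agent.P006.SG.Limit
import Mathlib.Analysis.SpecialFunctions.Integrals.Basic

/-!
P006, block KU: sharp asymptotics, with polynomial dependence on the frequency, of the sums of
normalised Gauss sums over primary elements.
-/

namespace Vale.Agent.P006.KU.Sharp

open Finset H570 H611 MeasureTheory
open scoped Classical

/-- `N^{-1/6} - X^{-1/6}` as an integral over `(1, X]` -/
theorem rpow_sub_eq {n X : ℝ} (hn : 1 ≤ n) (hX : n ≤ X) :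
    n ^ (-(1 / 6) : ℝ) - X ^ (-(1 / 6) : ℝ) = ∫ u in Set.Ioc 1 X,
      (Set.Ici n).indicator (fun u : ℝ => (1 / 6) * u ^ (-(7 / 6) : ℝ)) u := by
  have h0 : (0 : ℝ) < n := by linarith
  have h1 : (Set.Ici n).indicator (fun u : ℝ => (1 / 6) * u ^ (-(7 / 6) : ℝ))
      =ᵐ[volume.restrict (Set.Ioc 1 X)]
      (Set.Ioi n).indicator (fun u : ℝ => (1 / 6) * u ^ (-(7 / 6) : ℝ)) :=
    ae_restrict_of_ae (indicator_ae_eq_of_ae_eq_set Ioi_ae_eq_Ici.symm)
  have h2 : Set.Ioc 1 X ∩ Set.Ioi n = Set.Ioc n X := by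
    ext u
    constructor
    · rintro ⟨⟨_, h3⟩, h4⟩; exact ⟨h4, h3⟩
    · rintro ⟨h3, h4⟩; exact ⟨⟨by linarith, h4⟩, h3⟩
  rw [integral_congr_ae h1, setIntegral_indicator measurableSet_Ioi, h2,
    ← intervalIntegral.integral_of_le hX,
    intervalIntegral.integral_const_mul, integral_rpow]
  · norm_num; ring
  · right
    refine ⟨by norm_num, ?_⟩
    rw [Set.uIcc_of_le hX]
    intro h
    linarith [h.1]

theorem mo_sum_eq {X : ℝ} (hX : 1 ≤ X) :
    ∑ c ∈ (nb X).filter Primary, mo c = ((∑ c ∈ TI.SQ X, (N c : ℝ) ^ (-(1 / 6) : ℝ) : ℝ) : ℂ) := by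
  have e : TI.SQ X = ((nb X).filter Primary).filter Squarefree := by
    ext c
    rw [TI.mem_SQ, mem_filter, mem_filter, mem_nb (by linarith)]
    tauto
  rw [e, sum_filter (s := (nb X).filter Primary)]
  push_cast
  refine sum_congr rfl fun c _ => ?_
  unfold mo
  split_ifs <;> simp

/-- sharp model sum -/
theorem sum_model : ∃ C : ℝ, 0 ≤ C ∧ ∀ X : ℝ, 1 ≤ X →
    |∑ c ∈ TI.SQ X, (N c : ℝ) ^ (-(1 / 6) : ℝ) - 6 / 5 * TI.kap * X ^ (5 / 6 : ℝ)| ≤
      C * X ^ (5 / 6 - 1 / 1000 : ℝ) := by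
  set M : ℝ := 16 * TI.ZS (2 * (3 / 5)) with hM
  have hM0 : 0 ≤ M := by have := TI.ZS_nonneg (2 * (3 / 5)); positivity
  have hkap := TI.kap_pos
  have hE : ∀ u : ℝ, 0 < u → |((TI.SQ u).card : ℝ) - TI.kap * u| ≤ M * u ^ (3 / 5 : ℝ) :=
    fun u hu => TI.abs_card_SQ_sub_le hu (by norm_num) (by norm_num)
  refine ⟨M + 3 * M + TI.kap, by positivity, fun X hX => ?_⟩
  have hX0 : 0 < X := by linarith
  set g : ℝ → ℝ := fun u => (1 / 6) * u ^ (-(7 / 6) : ℝ) with hg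
  have hgc : ContinuousOn g (Set.Icc 1 X) := by
    refine continuousOn_const.mul ?_
    intro u hu
    exact (Real.continuousAt_rpow_const u _ (Or.inl (by linarith [hu.1]))).continuousWithinAt
  have hgi : IntegrableOn g (Set.Ioc 1 X) :=
    (hgc.integrableOn_compact isCompact_Icc).mono_set Set.Ioc_subset_Icc_self
  have hgm : ∀ n : ℝ, IntegrableOn ((Set.Ici n).indicator g) (Set.Ioc 1 X) := fun n =>
    hgi.indicator measurableSet_Ici
  -- the sum as an integral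
  have e1 : ∑ c ∈ TI.SQ X, (N c : ℝ) ^ (-(1 / 6) : ℝ)
      = (TI.SQ X).card * X ^ (-(1 / 6) : ℝ) +
        ∫ u in Set.Ioc 1 X, ∑ c ∈ TI.SQ X, (Set.Ici (N c : ℝ)).indicator g u := by
    rw [integral_finsetSum _ (fun c _ => hgm _), ← nsmul_eq_mul, ← sum_const, ← sum_add_distrib]
    refine sum_congr rfl fun c hc => ?_
    rw [TI.mem_SQ] at hc
    rw [← rpow_sub_eq (by exact_mod_cast N_pos hc.1.ne_zero) hc.2.2]
    ring
  have hsumi : IntegrableOn (fun u => ∑ c ∈ TI.SQ X, (Set.Ici (N c : ℝ)).indicator g u)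
      (Set.Ioc 1 X) := integrable_finsetSum _ (fun c _ => hgm _)
  have hmaini : IntegrableOn (fun u => TI.kap * u * g u) (Set.Ioc 1 X) := by
    have : ContinuousOn (fun u => TI.kap * u * g u) (Set.Icc 1 X) :=
      (continuousOn_const.mul continuousOn_id).mul hgc
    exact (this.integrableOn_compact isCompact_Icc).mono_set Set.Ioc_subset_Icc_self
  -- main part of the integral
  have e2 : ∫ u in Set.Ioc 1 X, TI.kap * u * g u
      = TI.kap / 5 * (X ^ (5 / 6 : ℝ) - 1) := by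
    have h1 : Set.EqOn (fun u => TI.kap * u * g u)
        (fun u => TI.kap / 6 * u ^ (-(1 / 6) : ℝ)) (Set.Ioc 1 X) := by
      intro u hu
      have hu0 : 0 < u := by linarith [hu.1]
      simp only [hg]
      have h2 : u ^ (-(1 / 6) : ℝ) = u * u ^ (-(7 / 6) : ℝ) := by
        conv_rhs => rw [← Real.rpow_one u, ← Real.rpow_mul hu0.le, ← Real.rpow_add hu0]
        norm_num
      rw [h2]; ring
    rw [setIntegral_congr_fun measurableSet_Ioc h1, ← intervalIntegral.integral_of_le hX,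
      intervalIntegral.integral_const_mul, integral_rpow (Or.inl (by norm_num))]
    norm_num
    ring
  -- error part of the integral
  have e3 : |∫ u in Set.Ioc 1 X, (∑ c ∈ TI.SQ X, (Set.Ici (N c : ℝ)).indicator g u
      - TI.kap * u * g u)| ≤ 3 * M * X ^ (5 / 6 - 1 / 1000 : ℝ) := by
    have hb : ∀ᵐ u ∂(volume.restrict (Set.Ioc 1 X)),
        ‖∑ c ∈ TI.SQ X, (Set.Ici (N c : ℝ)).indicator g u - TI.kap * u * g u‖ ≤
        M / 6 * u ^ (-(17 / 30) : ℝ) := by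
      filter_upwards [ae_restrict_mem measurableSet_Ioc] with u hu
      have hu0 : 0 < u := by linarith [hu.1]
      have h1 : ∑ c ∈ TI.SQ X, (Set.Ici (N c : ℝ)).indicator g u
          = ((TI.SQ u).card : ℝ) * g u := by
        have h2 : TI.SQ u = (TI.SQ X).filter (fun c => (N c : ℝ) ≤ u) := by
          ext c
          rw [mem_filter, TI.mem_SQ, TI.mem_SQ]
          constructor
          · rintro ⟨a, b, c1⟩
            exact ⟨⟨a, b, c1.trans hu.2⟩, c1⟩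
          · rintro ⟨⟨a, b, _⟩, c2⟩
            exact ⟨a, b, c2⟩
        rw [h2, card_filter]
        push_cast
        rw [sum_mul]
        refine sum_congr rfl fun c _ => ?_
        rw [Set.indicator_apply]
        by_cases h3 : (N c : ℝ) ≤ u
        · rw [if_pos (show u ∈ Set.Ici (N c : ℝ) from h3), if_pos h3, one_mul]
        · rw [if_neg (show u ∉ Set.Ici (N c : ℝ) from h3), if_neg h3, zero_mul]
      rw [h1, ← sub_mul, norm_mul, Real.norm_eq_abs]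
      have h4 := hE u hu0
      have h5 : ‖g u‖ = (1 / 6) * u ^ (-(7 / 6) : ℝ) := by
        rw [Real.norm_of_nonneg]
        positivity
      rw [h5]
      have h6 : u ^ (-(17 / 30) : ℝ) = u ^ (3 / 5 : ℝ) * u ^ (-(7 / 6) : ℝ) := by
        rw [← Real.rpow_add hu0]; norm_num
      calc _ ≤ (M * u ^ (3 / 5 : ℝ)) * ((1 / 6) * u ^ (-(7 / 6) : ℝ)) := by gcongr
        _ = _ := by rw [h6]; ring
    have hbi : IntegrableOn (fun u : ℝ => M / 6 * u ^ (-(17 / 30) : ℝ)) (Set.Ioc 1 X) := by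
      have : ContinuousOn (fun u : ℝ => M / 6 * u ^ (-(17 / 30) : ℝ)) (Set.Icc 1 X) := by
        refine continuousOn_const.mul fun u hu => ?_
        exact (Real.continuousAt_rpow_const u _ (Or.inl (by linarith [hu.1]))).continuousWithinAt
      exact (this.integrableOn_compact isCompact_Icc).mono_set Set.Ioc_subset_Icc_self
    have h7 := norm_integral_le_of_norm_le hbi hb
    rw [Real.norm_eq_abs] at h7
    refine h7.trans ?_
    rw [← intervalIntegral.integral_of_le hX, intervalIntegral.integral_const_mul,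
      integral_rpow (Or.inl (by norm_num))]
    have h8 : X ^ (-(17 / 30) + 1 : ℝ) ≤ X ^ (5 / 6 - 1 / 1000 : ℝ) :=
      Real.rpow_le_rpow_of_exponent_le hX (by norm_num)
    have h9 : (0 : ℝ) < X ^ (5 / 6 - 1 / 1000 : ℝ) := by positivity
    rw [Real.one_rpow, show (-(17 / 30) + 1 : ℝ) = 13 / 30 by norm_num] at *
    have h10 : (X ^ (13 / 30 : ℝ) - 1) / (13 / 30) ≤ 3 * X ^ (5 / 6 - 1 / 1000 : ℝ) := by
      rw [div_le_iff₀ (by norm_num)]
      linarith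
    nlinarith
  have e4 := hE X hX0
  have hP : 0 ≤ X ^ (-(1 / 6) : ℝ) := by positivity
  have e5 : X ^ (5 / 6 : ℝ) = X * X ^ (-(1 / 6) : ℝ) := by
    conv_rhs => rw [← Real.rpow_one X, ← Real.rpow_mul hX0.le, ← Real.rpow_add hX0]
    norm_num
  have e6 : |((TI.SQ X).card : ℝ) * X ^ (-(1 / 6) : ℝ) - TI.kap * X ^ (5 / 6 : ℝ)|
      ≤ M * X ^ (5 / 6 - 1 / 1000 : ℝ) := by
    rw [e5, ← mul_assoc, ← sub_mul, abs_mul, abs_of_nonneg hP]
    calc |((TI.SQ X).card : ℝ) - TI.kap * X| * X ^ (-(1 / 6) : ℝ)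
        ≤ M * X ^ (3 / 5 : ℝ) * X ^ (-(1 / 6) : ℝ) := by gcongr
      _ = M * X ^ (3 / 5 + -(1 / 6) : ℝ) := by rw [Real.rpow_add hX0]; ring
      _ ≤ _ := mul_le_mul_of_nonneg_left
          (Real.rpow_le_rpow_of_exponent_le hX (by norm_num)) hM0
  have e7 : 1 ≤ X ^ (5 / 6 - 1 / 1000 : ℝ) := Real.one_le_rpow hX (by norm_num)
  rw [integral_sub hsumi hmaini, e2] at e3
  rw [e1]
  have e8 := abs_le.1 e3
  have e9 := abs_le.1 e6
  rw [abs_le]
  constructor <;> nlinarith [e8.1, e8.2, e9.1, e9.2]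

/-- sharp asymptotics, error in terms of `θ k` -/
theorem sharp_pre {θ : O → ℂ} (h : V2.FCHyp θ) : ∃ K : ℝ, 0 ≤ K ∧ ∀ k : O, k ≠ 0 → ∀ X : ℝ, 1 ≤ X →
    ‖∑ c ∈ (nb X).filter Primary, gt k c - 6 / 5 * θ k * ((X ^ (5 / 6 : ℝ) : ℝ) : ℂ)‖ ≤
      K * (N k + ‖θ k‖) * X ^ (5 / 6 - 1 / 1000 : ℝ) := by
  obtain ⟨K, hK, hsharp⟩ := sharp_of_smooth
  obtain ⟨C1, hC1, hsm⟩ := smooth_wm h
  obtain ⟨C2, hC2, hmod⟩ := sum_model
  have hkap := TI.kap_pos
  have hik : 0 ≤ 1 / TI.kap := by positivity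
  refine ⟨K * (1 + 1 / TI.kap + C1) + C2 / TI.kap, by positivity, fun k hk X hX => ?_⟩
  have hθ : 0 ≤ ‖θ k‖ := norm_nonneg _
  have hN : (0 : ℝ) ≤ N k := Nat.cast_nonneg _
  have h1 := hsharp (wm θ k) (N k + ‖θ k‖ / TI.kap) (C1 * (N k + ‖θ k‖)) (by positivity)
    (fun c hc => norm_wm_le hk hc) (hsm k hk) X hX
  have h2 := hmod X hX
  set Z : ℝ := X ^ (5 / 6 - 1 / 1000 : ℝ) with hZ
  have hZ0 : 0 ≤ Z := by positivity
  have hk0 : (TI.kap : ℂ) ≠ 0 := by exact_mod_cast hkap.ne'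
  have e1 : ∑ c ∈ (nb X).filter Primary, gt k c - 6 / 5 * θ k * ((X ^ (5 / 6 : ℝ) : ℝ) : ℂ)
      = ∑ c ∈ (nb X).filter Primary, wm θ k c + θ k / TI.kap *
        (∑ c ∈ (nb X).filter Primary, mo c - ((6 / 5 * TI.kap * X ^ (5 / 6 : ℝ) : ℝ) : ℂ)) := by
    simp only [wm, sum_sub_distrib, ← mul_sum]
    push_cast
    field_simp
    ring
  rw [e1]
  refine (norm_add_le _ _).trans ?_
  have h3 : ‖θ k / TI.kap *
        (∑ c ∈ (nb X).filter Primary, mo c - ((6 / 5 * TI.kap * X ^ (5 / 6 : ℝ) : ℝ) : ℂ))‖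
      ≤ ‖θ k‖ / TI.kap * (C2 * Z) := by
    rw [mo_sum_eq hX, ← Complex.ofReal_sub, norm_mul, norm_div, Complex.norm_real,
      Complex.norm_real, Real.norm_of_nonneg hkap.le, Real.norm_eq_abs]
    gcongr
  refine (add_le_add h1 h3).trans ?_
  have i1 : 0 ≤ K * (1 / TI.kap) * N k * Z := by positivity
  have i2 : 0 ≤ K * ‖θ k‖ * Z := by positivity
  have i3 : 0 ≤ C2 / TI.kap * N k * Z := by positivity
  have e2 : K * (N k + ‖θ k‖ / TI.kap + C1 * (N k + ‖θ k‖)) * Z + ‖θ k‖ / TI.kap * (C2 * Z)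
      = (K * (1 + 1 / TI.kap + C1) + C2 / TI.kap) * (N k + ‖θ k‖) * Z
        - K * (1 / TI.kap) * N k * Z - K * ‖θ k‖ * Z - C2 / TI.kap * N k * Z := by
    field_simp
    ring
  rw [e2]
  linarith

/-- polynomial bound of the coefficients -/
theorem norm_theta_le {θ : O → ℂ} (h : V2.FCHyp θ) : ∃ K : ℝ, 0 ≤ K ∧ ∀ k : O, k ≠ 0 →
    ‖θ k‖ ≤ K * N k := by
  obtain ⟨K, hK, hs⟩ := sharp_pre h
  obtain ⟨X, hX1, e0⟩ : ∃ X : ℝ, 1 ≤ X ∧ X ^ (1 / 1000 : ℝ) = 1 + 5 * K := by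
    refine ⟨(1 + 5 * K) ^ (1000 : ℝ), Real.one_le_rpow (by linarith) (by norm_num), ?_⟩
    rw [← Real.rpow_mul (by positivity)]
    norm_num
  have hX0 : 0 < X := by linarith
  refine ⟨16 * X + 1, by positivity, fun k hk => ?_⟩
  have h1 := hs k hk X hX1
  have hN : (1 : ℝ) ≤ N k := by exact_mod_cast N_pos hk
  have hθ : 0 ≤ ‖θ k‖ := norm_nonneg _
  have e1 : K * X ^ (5 / 6 - 1 / 1000 : ℝ) ≤ 1 / 5 * X ^ (5 / 6 : ℝ) := by
    have h2 : X ^ (5 / 6 : ℝ) = X ^ (5 / 6 - 1 / 1000 : ℝ) * X ^ (1 / 1000 : ℝ) := by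
      rw [← Real.rpow_add hX0]; norm_num
    rw [h2, e0]
    have h3 : 0 ≤ X ^ (5 / 6 - 1 / 1000 : ℝ) := by positivity
    nlinarith
  have e2 : ‖∑ c ∈ (nb X).filter Primary, gt k c‖ ≤ 16 * X * N k := by
    refine (norm_sum_le _ _).trans ?_
    calc ∑ c ∈ (nb X).filter Primary, ‖gt k c‖ ≤ ∑ _c ∈ (nb X).filter Primary, (N k : ℝ) :=
          sum_le_sum fun c hc => norm_gt_le_N hk (mem_filter.1 hc).2
      _ = ((nb X).filter Primary).card * N k := by rw [sum_const, nsmul_eq_mul]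
      _ ≤ 16 * X * N k := by
          have h3 : (((nb X).filter Primary).card : ℝ) ≤ (nb X).card := by
            exact_mod_cast card_filter_le _ _
          have h4 := card_nb_le hX1
          gcongr
          linarith
  have e3 : ‖(6 / 5 : ℂ) * θ k * ((X ^ (5 / 6 : ℝ) : ℝ) : ℂ)‖
      = 6 / 5 * ‖θ k‖ * X ^ (5 / 6 : ℝ) := by
    rw [norm_mul, norm_mul, Complex.norm_real, Real.norm_of_nonneg (by positivity)]
    norm_num
  have e4 : 6 / 5 * ‖θ k‖ * X ^ (5 / 6 : ℝ) ≤ 16 * X * N k +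
      K * (N k + ‖θ k‖) * X ^ (5 / 6 - 1 / 1000 : ℝ) := by
    rw [← e3]
    calc ‖(6 / 5 : ℂ) * θ k * ((X ^ (5 / 6 : ℝ) : ℝ) : ℂ)‖
        = ‖∑ c ∈ (nb X).filter Primary, gt k c - (∑ c ∈ (nb X).filter Primary, gt k c
            - 6 / 5 * θ k * ((X ^ (5 / 6 : ℝ) : ℝ) : ℂ))‖ := by congr 1; ring
      _ ≤ _ := (norm_sub_le _ _).trans (add_le_add e2 h1)
  have e5 : 1 ≤ X ^ (5 / 6 : ℝ) := Real.one_le_rpow hX1 (by norm_num)
  set W : ℝ := X ^ (5 / 6 : ℝ) with hW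
  have e6 : K * (N k + ‖θ k‖) * X ^ (5 / 6 - 1 / 1000 : ℝ) ≤ 1 / 5 * W * (N k + ‖θ k‖) := by
    have : K * (N k + ‖θ k‖) * X ^ (5 / 6 - 1 / 1000 : ℝ)
        = (K * X ^ (5 / 6 - 1 / 1000 : ℝ)) * (N k + ‖θ k‖) := by ring
    rw [this]
    gcongr
  have e7 : ‖θ k‖ * W ≤ (16 * X * N k + 1 / 5 * N k) * W := by
    have e8 : 16 * X * N k ≤ 16 * X * N k * W := by
      have : 0 ≤ 16 * X * N k := by positivity
      nlinarith
    nlinarith
  have e9 : ‖θ k‖ ≤ 16 * X * N k + 1 / 5 * N k := le_of_mul_le_mul_right e7 (by linarith)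
  linarith

/-- **Sharp asymptotics** in the form consumed by the block SG -/
theorem sharpHyp_of_FCHyp {θ : O → ℂ} (h : V2.FCHyp θ) :
    ∃ (C : ℝ) (A : ℕ) (δ : ℝ), 0 < δ ∧ δ < 1 / 3 ∧ SG.SharpHyp θ C A δ := by
  obtain ⟨K, hK, hs⟩ := sharp_pre h
  obtain ⟨K4, hK4, hθ⟩ := norm_theta_le h
  refine ⟨K * (1 + K4) + 2 * K4, 1, 1 / 1000, by norm_num, by norm_num, fun k hk t ht => ?_⟩
  have hN : (1 : ℝ) ≤ N k := by exact_mod_cast N_pos hk
  have h1 := hθ k hk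
  have hPS : SG.PS (SG.gt k) t = ∑ c ∈ (nb t).filter Primary, gt k c := rfl
  rw [hPS, pow_one]
  have hZ : 0 < t ^ (5 / 6 - 1 / 1000 : ℝ) := by positivity
  rcases le_or_gt 1 t with ht1 | ht1
  · refine (hs k hk t ht1).trans ?_
    have : K * (N k + ‖θ k‖) ≤ (K * (1 + K4) + 2 * K4) * N k := by nlinarith
    gcongr
  · have e1 : (nb t).filter Primary = ∅ := by
      rw [filter_eq_empty_iff]
      intro c hc hP
      rw [mem_nb ht.le] at hc
      have : (1 : ℝ) ≤ N c := by exact_mod_cast N_pos hP.ne_zero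
      linarith
    have e2 : t ^ (5 / 6 : ℝ) ≤ t ^ (5 / 6 - 1 / 1000 : ℝ) :=
      Real.rpow_le_rpow_of_exponent_ge ht ht1.le (by norm_num)
    rw [e1, sum_empty, zero_sub, norm_neg, norm_mul, norm_mul, Complex.norm_real,
      Real.norm_of_nonneg (by positivity)]
    have e3 : ‖(6 / 5 : ℂ)‖ = 6 / 5 := by norm_num
    rw [e3]
    calc 6 / 5 * ‖θ k‖ * t ^ (5 / 6 : ℝ) ≤ 6 / 5 * (K4 * N k) * t ^ (5 / 6 - 1 / 1000 : ℝ) := by
          gcongr
      _ ≤ (K * (1 + K4) + 2 * K4) * N k * t ^ (5 / 6 - 1 / 1000 : ℝ) := by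
          have : 6 / 5 * (K4 * N k) ≤ (K * (1 + K4) + 2 * K4) * N k := by
            have i1 : 0 ≤ K4 * N k := by positivity
            have i2 : 0 ≤ K * (1 + K4) * N k := by positivity
            nlinarith
          gcongr

end Vale.Agent.P006.KU.Sharp
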